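import Mathlib

/-! Tracial states on unital C⋆-algebras and the trace 2-seminorm. -/

set_option autoImplicit false

open scoped ComplexConjugate InnerProductSpace Topology
open Filter

noncomputable section

namespace Crest.Agent.Lib.Tracial

/-- A (not necessarily faithful) tracial state on a unital C⋆-algebra. -/
structure TrState (A : Type*) [CStarAlgebra A] where
  /-- the functional -/
  lin : A →ₗ[ℂ] ℂ
  map_one' : lin 1 = 1
  map_star' : ∀ x, lin (star x) = conj (lin x)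
  pos' : ∀ x, 0 ≤ (lin (star x * x)).re
  comm' : ∀ x y, lin (x * y) = lin (y * x)

namespace TrState

variable {A : Type*} [CStarAlgebra A] (τ : TrState A)

instance : CoeFun (TrState A) (fun _ => A → ℂ) := ⟨fun τ => τ.lin⟩

@[simp] lemma tr_one : τ 1 = 1 := τ.map_one'
@[simp] lemma tr_zero : τ 0 = 0 := map_zero τ.lin
lemma tr_star (x : A) : τ (star x) = conj (τ x) := τ.map_star' x
lemma tr_comm (x y : A) : τ (x * y) = τ (y * x) := τ.comm' x y
lemma tr_add (x y : A) : τ (x + y) = τ x + τ y := map_add τ.lin x y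
lemma tr_sub (x y : A) : τ (x - y) = τ x - τ y := map_sub τ.lin x y
lemma tr_neg (x : A) : τ (-x) = -τ x := map_neg τ.lin x
lemma tr_smul (c : ℂ) (x : A) : τ (c • x) = c * τ x := map_smul τ.lin c x
lemma tr_sum {ι : Type*} (s : Finset ι) (f : ι → A) : τ (∑ i ∈ s, f i) = ∑ i ∈ s, τ (f i) :=
  map_sum τ.lin f s
lemma tr_real_smul (c : ℝ) (x : A) : τ (c • x) = c * τ x := by
  rw [← Complex.coe_smul, tr_smul]
lemma tr_cyc (x y z : A) : τ (x * y * z) = τ (z * x * y) := by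
  rw [τ.tr_comm, mul_assoc]
lemma re_pos (x : A) : 0 ≤ (τ (star x * x)).re := τ.pos' x

include τ in
lemma nontrivial : Nontrivial A := by
  refine ⟨⟨1, 0, fun h => ?_⟩⟩
  have := τ.tr_one
  rw [h, τ.tr_zero] at this
  exact zero_ne_one this

/-- The algebra with the trace pre-inner product. -/
@[nolint unusedArguments]
def L2 (_τ : TrState A) : Type _ := A

instance : AddCommGroup τ.L2 := inferInstanceAs (AddCommGroup A)
instance : Module ℂ τ.L2 := inferInstanceAs (Module ℂ A)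

/-- The identity map into the pre-Hilbert space. -/
def toL2 : A ≃ₗ[ℂ] τ.L2 := LinearEquiv.refl ℂ _

/-- The pre-inner product core. -/
abbrev core : PreInnerProductSpace.Core ℂ τ.L2 where
  inner a b := τ (star (τ.toL2.symm a) * τ.toL2.symm b)
  conj_inner_symm a b := by
    rw [← τ.tr_star]; simp
  re_inner_nonneg a := τ.re_pos _
  add_left _ _ _ := by rw [map_add, star_add, add_mul, τ.tr_add]
  smul_left a b c := by
    rw [map_smul, star_smul, smul_mul_assoc, τ.tr_smul]; rfl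

instance : SeminormedAddCommGroup τ.L2 :=
  InnerProductSpace.Core.toSeminormedAddCommGroup (c := τ.core)
instance : InnerProductSpace ℂ τ.L2 := InnerProductSpace.ofCore τ.core

lemma inner_toL2 (x y : A) : ⟪τ.toL2 x, τ.toL2 y⟫_ℂ = τ (star x * y) := rfl

/-- The trace 2-seminorm. -/
def n2 (x : A) : ℝ := ‖τ.toL2 x‖

lemma n2_nonneg (x : A) : 0 ≤ τ.n2 x := norm_nonneg _

lemma n2_sq (x : A) : τ.n2 x ^ 2 = (τ (star x * x)).re := by
  rw [n2, ← inner_toL2, ← inner_self_eq_norm_sq (𝕜 := ℂ)]; rfl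

lemma n2_sq_complex (x : A) : ((τ.n2 x : ℂ)) ^ 2 = τ (star x * x) := by
  rw [n2, ← inner_toL2, inner_self_eq_norm_sq_to_K]; rfl

lemma n2_add_le (x y : A) : τ.n2 (x + y) ≤ τ.n2 x + τ.n2 y := by
  unfold n2; rw [map_add]; exact norm_add_le _ _

lemma n2_neg (x : A) : τ.n2 (-x) = τ.n2 x := by unfold n2; rw [map_neg, norm_neg]

lemma n2_sub_le (x y : A) : τ.n2 (x - y) ≤ τ.n2 x + τ.n2 y := by
  unfold n2; rw [map_sub]; exact norm_sub_le _ _

lemma n2_sub_rev (x y : A) : τ.n2 (x - y) = τ.n2 (y - x) := by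
  rw [← n2_neg, neg_sub]

lemma n2_triangle (x y z : A) : τ.n2 (x - z) ≤ τ.n2 (x - y) + τ.n2 (y - z) := by
  have := τ.n2_add_le (x - y) (y - z)
  rwa [sub_add_sub_cancel] at this

@[simp] lemma n2_zero : τ.n2 0 = 0 := by unfold n2; rw [map_zero, norm_zero]

lemma n2_smul (c : ℂ) (x : A) : τ.n2 (c • x) = ‖c‖ * τ.n2 x := by
  unfold n2; rw [map_smul, norm_smul]

lemma n2_real_smul (c : ℝ) (x : A) : τ.n2 (c • x) = |c| * τ.n2 x := by
  rw [← Complex.coe_smul, n2_smul]; simp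

lemma n2_sum_le {ι : Type*} (s : Finset ι) (f : ι → A) :
    τ.n2 (∑ i ∈ s, f i) ≤ ∑ i ∈ s, τ.n2 (f i) := by
  unfold n2; rw [map_sum]; exact norm_sum_le _ _

lemma abs_n2_sub_n2_le (x y : A) : |τ.n2 x - τ.n2 y| ≤ τ.n2 (x - y) := by
  unfold n2; rw [map_sub]; exact abs_norm_sub_norm_le _ _

lemma n2_add_sq (x y : A) :
    τ.n2 (x + y) ^ 2 = τ.n2 x ^ 2 + 2 * (τ (star x * y)).re + τ.n2 y ^ 2 := by
  unfold n2; rw [map_add, norm_add_sq (𝕜 := ℂ), inner_toL2]; rfl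

lemma n2_sub_sq (x y : A) :
    τ.n2 (x - y) ^ 2 = τ.n2 x ^ 2 - 2 * (τ (star x * y)).re + τ.n2 y ^ 2 := by
  unfold n2; rw [map_sub, norm_sub_sq (𝕜 := ℂ), inner_toL2]; rfl

lemma n2_parallelogram (x y : A) :
    τ.n2 (x + y) ^ 2 + τ.n2 (x - y) ^ 2 = 2 * (τ.n2 x ^ 2 + τ.n2 y ^ 2) := by
  rw [n2_add_sq, n2_sub_sq]; ring

lemma n2_eq_of_sq {x y : A} (h : τ.n2 x ^ 2 = τ.n2 y ^ 2) : τ.n2 x = τ.n2 y :=
  (sq_eq_sq₀ (τ.n2_nonneg x) (τ.n2_nonneg y)).mp h

lemma n2_star (x : A) : τ.n2 (star x) = τ.n2 x := by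
  apply n2_eq_of_sq
  rw [n2_sq, n2_sq, star_star, τ.tr_comm]

lemma norm_tr_star_mul_le (x y : A) : ‖τ (star x * y)‖ ≤ τ.n2 x * τ.n2 y := by
  rw [← inner_toL2]; exact norm_inner_le_norm _ _

lemma norm_tr_mul_le (x y : A) : ‖τ (x * y)‖ ≤ τ.n2 x * τ.n2 y := by
  have := τ.norm_tr_star_mul_le (star x) y
  rwa [star_star, n2_star] at this

@[simp] lemma n2_one : τ.n2 1 = 1 := by
  have h := τ.n2_sq 1
  rw [star_one, one_mul, tr_one, Complex.one_re] at h
  have := τ.n2_nonneg 1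
  nlinarith

lemma norm_tr_le_n2 (x : A) : ‖τ x‖ ≤ τ.n2 x := by
  have := τ.norm_tr_mul_le 1 x
  rwa [one_mul, n2_one, one_mul] at this

lemma n2_mul_le_left (a x : A) : τ.n2 (a * x) ≤ ‖a‖ * τ.n2 x := by
  let := CStarAlgebra.spectralOrder A
  have := CStarAlgebra.spectralOrderedRing A
  have h1 : star a * a ≤ algebraMap ℝ A (‖a‖ ^ 2) := CStarAlgebra.star_mul_le_algebraMap_norm_sq
  have h2 : 0 ≤ algebraMap ℝ A (‖a‖ ^ 2) - star a * a := sub_nonneg.mpr h1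
  obtain ⟨b, hb⟩ := CStarAlgebra.nonneg_iff_eq_star_mul_self.mp h2
  have h3 := τ.re_pos (b * x)
  have h4 : star (b * x) * (b * x) = (‖a‖ ^ 2 : ℝ) • (star x * x) - star (a * x) * (a * x) := by
    rw [star_mul, star_mul, mul_assoc, ← mul_assoc (star b), ← hb, Algebra.algebraMap_eq_smul_one]
    simp only [sub_mul, mul_sub, smul_mul_assoc, one_mul, mul_smul_comm, mul_assoc]
  rw [h4, tr_sub, tr_real_smul, Complex.sub_re, Complex.re_ofReal_mul, ← n2_sq, ← n2_sq] at h3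
  have h5 : τ.n2 (a * x) ^ 2 ≤ (‖a‖ * τ.n2 x) ^ 2 := by rw [mul_pow]; linarith
  exact (sq_le_sq₀ (τ.n2_nonneg _) (mul_nonneg (norm_nonneg _) (τ.n2_nonneg _))).mp h5

lemma n2_mul_le_right (x a : A) : τ.n2 (x * a) ≤ τ.n2 x * ‖a‖ := by
  rw [← n2_star, star_mul, ← τ.n2_star x, mul_comm, ← norm_star a]
  exact τ.n2_mul_le_left _ _

lemma n2_mul_mul_le (a x b : A) : τ.n2 (a * x * b) ≤ ‖a‖ * τ.n2 x * ‖b‖ :=
  (τ.n2_mul_le_right _ _).trans
    (mul_le_mul_of_nonneg_right (τ.n2_mul_le_left _ _) (norm_nonneg _))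

lemma n2_le_norm (x : A) : τ.n2 x ≤ ‖x‖ := by
  have := τ.n2_mul_le_left x 1
  rwa [mul_one, n2_one, mul_one] at this

lemma norm_tr_le (x : A) : ‖τ x‖ ≤ ‖x‖ := (τ.norm_tr_le_n2 x).trans (τ.n2_le_norm x)

lemma n2_mul_le_of_norm_le_one_left {a : A} (ha : ‖a‖ ≤ 1) (x : A) : τ.n2 (a * x) ≤ τ.n2 x :=
  (τ.n2_mul_le_left a x).trans (mul_le_of_le_one_left (τ.n2_nonneg _) ha)

lemma n2_mul_le_of_norm_le_one_right (x : A) {a : A} (ha : ‖a‖ ≤ 1) : τ.n2 (x * a) ≤ τ.n2 x :=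
  (τ.n2_mul_le_right x a).trans (mul_le_of_le_one_right (τ.n2_nonneg _) ha)

lemma n2_unitary_mul {u : A} (hu : u ∈ unitary A) (x : A) : τ.n2 (u * x) = τ.n2 x := by
  apply n2_eq_of_sq
  rw [n2_sq, n2_sq, star_mul, mul_assoc, ← mul_assoc (star u), (Unitary.mem_iff.mp hu).1, one_mul]

lemma n2_mul_unitary (x : A) {u : A} (hu : u ∈ unitary A) : τ.n2 (x * u) = τ.n2 x := by
  rw [← n2_star, star_mul, n2_unitary_mul _ (Unitary.star_mem hu), n2_star]

lemma n2_unitary {u : A} (hu : u ∈ unitary A) : τ.n2 u = 1 := by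
  have := τ.n2_unitary_mul hu 1
  rwa [mul_one, n2_one] at this

include τ in
lemma norm_unitary {u : A} (hu : u ∈ unitary A) : ‖u‖ = 1 := by
  have := τ.nontrivial
  exact CStarRing.norm_of_mem_unitary hu

include τ in
lemma norm_one_eq : ‖(1 : A)‖ = 1 := by
  have := τ.nontrivial
  exact norm_one

lemma tr_conj_unitary {u : A} (hu : u ∈ unitary A) (x : A) : τ (u * x * star u) = τ x := by
  rw [tr_cyc, (Unitary.mem_iff.mp hu).1, one_mul]

lemma tr_conj_unitary' {u : A} (hu : u ∈ unitary A) (x : A) : τ (star u * x * u) = τ x := by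
  rw [tr_cyc, (Unitary.mem_iff.mp hu).2, one_mul]

lemma n2_sub_tr_sq (x : A) : τ.n2 (x - τ x • (1 : A)) ^ 2 = τ.n2 x ^ 2 - ‖τ x‖ ^ 2 := by
  rw [n2_sub_sq, n2_smul, n2_one, mul_one, mul_smul_comm, mul_one, tr_smul, tr_star,
    Complex.mul_conj, Complex.ofReal_re, Complex.normSq_eq_norm_sq]
  ring

lemma n2_sub_tr_le (x : A) : τ.n2 (x - τ x • (1 : A)) ≤ τ.n2 x := by
  refine (sq_le_sq₀ (τ.n2_nonneg _) (τ.n2_nonneg _)).mp ?_
  rw [n2_sub_tr_sq]; nlinarith [sq_nonneg ‖τ x‖]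

lemma n2_unitary_sub_one_sq {u : A} (hu : u ∈ unitary A) :
    τ.n2 (u - 1) ^ 2 = 2 - 2 * (τ u).re := by
  rw [n2_sub_sq, n2_unitary _ hu, n2_one, mul_one, tr_star, Complex.conj_re]; ring

/-- The trace as a continuous linear map. -/
def clm : A →L[ℂ] ℂ := τ.lin.mkContinuous 1 (fun x => by rw [one_mul]; exact τ.norm_tr_le x)

@[simp] lemma clm_apply (x : A) : τ.clm x = τ x := rfl

lemma continuous_tr : Continuous (fun x => τ x) := τ.clm.continuous

lemma continuous_n2 : Continuous τ.n2 := by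
  refine (LipschitzWith.of_dist_le_mul (K := 1) fun x y => ?_).continuous
  rw [Real.dist_eq, dist_eq_norm, NNReal.coe_one, one_mul]
  exact (τ.abs_n2_sub_n2_le x y).trans (τ.n2_le_norm _)

/-- The restriction of a tracial state along a unital star homomorphism. -/
def comp {B : Type*} [CStarAlgebra B] (φ : B →⋆ₐ[ℂ] A) : TrState B where
  lin := τ.lin ∘ₗ (φ : B →ₗ[ℂ] A)
  map_one' := by simp
  map_star' x := by
    change τ (φ (star x)) = conj (τ (φ x))
    rw [map_star, tr_star]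
  pos' x := by
    change 0 ≤ (τ (φ (star x * x))).re
    rw [map_mul, map_star]; exact τ.re_pos _
  comm' x y := by
    change τ (φ (x * y)) = τ (φ (y * x))
    rw [map_mul φ, map_mul φ, tr_comm]

@[simp] lemma comp_apply {B : Type*} [CStarAlgebra B] (φ : B →⋆ₐ[ℂ] A) (x : B) :
    τ.comp φ x = τ (φ x) := rfl

lemma comp_n2 {B : Type*} [CStarAlgebra B] (φ : B →⋆ₐ[ℂ] A) (x : B) :
    (τ.comp φ).n2 x = τ.n2 (φ x) := by
  refine (sq_eq_sq₀ ((τ.comp φ).n2_nonneg _) (τ.n2_nonneg _)).mp ?_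
  rw [n2_sq, n2_sq, comp_apply, map_mul, map_star]

/-- The trace is faithful. -/
def Faithful : Prop := ∀ x : A, τ.n2 x = 0 → x = 0

/-- Norm-bounded sequences that are Cauchy for the 2-norm converge for the 2-norm. -/
def Complete : Prop :=
  ∀ (x : ℕ → A) (C : ℝ), (∀ n, ‖x n‖ ≤ C) →
    (∀ ε : ℝ, 0 < ε → ∃ N, ∀ m ≥ N, ∀ n ≥ N, τ.n2 (x m - x n) < ε) →
    ∃ y : A, ‖y‖ ≤ C ∧ Tendsto (fun n => τ.n2 (x n - y)) atTop (𝓝 0)

/-- The algebra is separable for the 2-norm. -/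
def Separable : Prop := ∃ z : ℕ → A, ∀ (y : A) (ε : ℝ), 0 < ε → ∃ n, τ.n2 (y - z n) < ε

/-- A subset closed under norm-bounded 2-norm limits. -/
def WClosed (S : Set A) : Prop :=
  ∀ (x : ℕ → A) (C : ℝ) (y : A), (∀ n, x n ∈ S) → (∀ n, ‖x n‖ ≤ C) →
    Tendsto (fun n => τ.n2 (x n - y)) atTop (𝓝 0) → y ∈ S

/-- A subset that is dense for the 2-norm. -/
def Dense2 (S : Set A) : Prop := ∀ (y : A) (ε : ℝ), 0 < ε → ∃ b ∈ S, τ.n2 (y - b) < ε

/-- Averaging property of a subset `Q`: finite families of symmetries in `Q` that twirl any finite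
set to scalars and are asymptotically orthogonal to it on average. -/
def AV (Q : Set A) : Prop :=
  ∀ (Y : Finset A) (η : ℝ), 0 < η → ∃ (N : ℕ) (h : Fin N → A), 0 < N ∧
    (∀ i, h i ∈ Q ∧ star (h i) = h i ∧ h i * h i = 1) ∧
    ∀ y ∈ Y, τ.n2 ((N : ℂ)⁻¹ • ∑ i, h i * y * h i - τ y • (1 : A)) ≤ η ∧
      (N : ℝ)⁻¹ * ∑ i, ‖τ (h i * y)‖ ^ 2 ≤ η

lemma AV.mono {τ : TrState A} {Q Q' : Set A} (h : τ.AV Q) (hQ : Q ⊆ Q') : τ.AV Q' := by
  intro Y η hη
  obtain ⟨N, g, hN, hg, hY⟩ := h Y η hη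
  exact ⟨N, g, hN, fun i => ⟨hQ (hg i).1, (hg i).2⟩, hY⟩

end TrState

/-- Evaluation of a word `w^{ε₁} z₁ ⋯ w^{ε_k} z_k` (`true` is `w`, `false` is `star w`). -/
def evw {A : Type*} [Monoid A] [Star A] (w : A) : List (Bool × A) → A
  | [] => 1
  | p :: W => (if p.1 then w else star w) * p.2 * evw w W

theorem evw_eq_anchor : (type_of% @evw.eq_def.{0}) ∧ (type_of% @evw.eq_1.{0}) ∧
    (type_of% @evw.eq_2.{0}) := ⟨@evw.eq_def.{0}, @evw.eq_1.{0}, @evw.eq_2.{0}⟩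

/-- A word is reduced: between two letters of opposite sign stands an element of trace zero
(no condition on the last element). -/
def RedW {A : Type*} [CStarAlgebra A] (τ : TrState A) (W : List (Bool × A)) : Prop :=
  W.IsChain (fun p q => p.1 ≠ q.1 → τ p.2 = 0)

/-- Exact free extension property: in every coset `y U(Q)` there is a Haar unitary free from a
given countable family. -/
def TrState.FreeExt {A : Type*} [CStarAlgebra A] (τ : TrState A) (Q : Set A) : Prop :=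
  ∀ (y : A), y ∈ unitary A → ∀ X : Set A, X.Countable →
    ∃ a ∈ Q, a ∈ unitary A ∧ ∀ W : List (Bool × A), W ≠ [] → (∀ p ∈ W, p.2 ∈ X) → RedW τ W →
      τ (evw (y * a) W) = 0

/-- A system of commuting Pauli pairs. -/
structure PauliTower {A : Type*} [Ring A] [StarRing A] (s t : ℕ → A) : Prop where
  s_sa : ∀ j, star (s j) = s j
  t_sa : ∀ j, star (t j) = t j
  s_sq : ∀ j, s j * s j = 1
  t_sq : ∀ j, t j * t j = 1
  anti : ∀ j, s j * t j = -(t j * s j)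
  ss : ∀ i j, s i * s j = s j * s i
  tt : ∀ i j, t i * t j = t j * t i
  st : ∀ i j, i ≠ j → s i * t j = t j * s i

end Crest.Agent.Lib.Tracial
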