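import Crest.Agent.Lib.Tracial.Iface

/-! Basic theory of II₁ factors in the tracial setting, and the cutting property. -/

set_option autoImplicit false

open scoped ComplexConjugate InnerProductSpace Topology
open Filter

noncomputable section

namespace Crest.Agent.Lib.Tracial

/-- The Brezis–Browder ordering principle. -/
theorem brezis_browder {S : Type*} (r : S → S → Prop) (refl : ∀ x, r x x)
    (trans : ∀ x y z, r x y → r y z → r x z) (x₀ : S) (φ : S → ℝ) (C : ℝ) (hC : ∀ x, φ x ≤ C)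
    (mono : ∀ x y, r x y → φ x ≤ φ y)
    (hub : ∀ x : ℕ → S, (∀ m n, m ≤ n → r (x m) (x n)) → ∃ u, ∀ n, r (x n) u) :
    ∃ m, ∀ m', r m m' → φ m' ≤ φ m := by
  have step : ∀ (x : S) (n : ℕ), ∃ y, r x y ∧ ∀ z, r x z → φ z ≤ φ y + 1 / ((n : ℝ) + 1) := by
    intro x n
    have hb : BddAbove (φ '' {z | r x z}) := ⟨C, by rintro _ ⟨z, -, rfl⟩; exact hC z⟩
    have hne : (φ '' {z | r x z}).Nonempty := ⟨_, x, refl x, rfl⟩
    obtain ⟨_, ⟨y, hy, rfl⟩, h⟩ := exists_lt_of_lt_csSup hne
      (sub_lt_self (sSup (φ '' {z | r x z})) (Nat.one_div_pos_of_nat (n := n)))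
    exact ⟨y, hy, fun z hz => by have := le_csSup hb ⟨z, hz, rfl⟩; linarith⟩
  choose f hf hf' using step
  let x : ℕ → S := fun n => Nat.rec x₀ (fun n y => f y n) n
  have hx : ∀ m n, m ≤ n → r (x m) (x n) := by
    intro m n h
    induction h with
    | refl => exact refl _
    | step _ ih => exact trans _ _ _ ih (hf _ _)
  obtain ⟨u, hu⟩ := hub x hx
  refine ⟨u, fun m' hm => le_of_forall_pos_le_add fun ε hε => ?_⟩
  obtain ⟨n, hn⟩ := exists_nat_one_div_lt hε
  have h1 := hf' (x n) n m' (trans _ _ _ (hu n) hm)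
  have h2 : φ (f (x n) n) ≤ φ u := mono _ _ (hu (n + 1))
  linarith

namespace TrState

variable {A : Type*} [CStarAlgebra A] {τ : TrState A}

/-! ### Limits in the 2-norm -/

/-- Convergence in the 2-norm. -/
def Lim (τ : TrState A) (x : ℕ → A) (y : A) : Prop :=
  Tendsto (fun n => τ.n2 (x n - y)) atTop (𝓝 0)

lemma Lim.of_le {x x' : ℕ → A} {y y' : A} (h : τ.Lim x y) (C : ℝ)
    (hle : ∀ n, τ.n2 (x' n - y') ≤ C * τ.n2 (x n - y)) : τ.Lim x' y' :=
  squeeze_zero (fun _ => τ.n2_nonneg _) hle (by simpa using Tendsto.const_mul C h)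

lemma lim_const (y : A) : τ.Lim (fun _ => y) y := by simp [Lim]

lemma Lim.mul_left {x : ℕ → A} {y : A} (h : τ.Lim x y) (a : A) :
    τ.Lim (fun n => a * x n) (a * y) :=
  h.of_le ‖a‖ fun n => by rw [← mul_sub]; exact τ.n2_mul_le_left _ _

lemma Lim.mul_right {x : ℕ → A} {y : A} (h : τ.Lim x y) (a : A) :
    τ.Lim (fun n => x n * a) (y * a) :=
  h.of_le ‖a‖ fun n => by rw [← sub_mul, mul_comm]; exact τ.n2_mul_le_right _ _

lemma Lim.star {x : ℕ → A} {y : A} (h : τ.Lim x y) : τ.Lim (fun n => star (x n)) (star y) :=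
  h.of_le 1 fun n => by rw [← star_sub, n2_star, one_mul]

lemma Lim.mul {x x' : ℕ → A} {y y' : A} (h : τ.Lim x y) (h' : τ.Lim x' y') {C : ℝ}
    (hC : ∀ n, ‖x n‖ ≤ C) : τ.Lim (fun n => x n * x' n) (y * y') := by
  refine squeeze_zero (fun _ => τ.n2_nonneg _) (g := fun n => C * τ.n2 (x' n - y') +
    τ.n2 (x n * y' - y * y')) (fun n => ?_) ?_
  · refine (τ.n2_triangle _ (x n * y') _).trans (add_le_add_left ?_ _)
    rw [← mul_sub]
    exact (τ.n2_mul_le_left _ _).trans (mul_le_mul_of_nonneg_right (hC n) (τ.n2_nonneg _))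
  · simpa using (Tendsto.const_mul C h').add (h.mul_right y')

lemma Lim.unique (hF : τ.Faithful) {x : ℕ → A} {y y' : A} (h : τ.Lim x y) (h' : τ.Lim x y') :
    y = y' := by
  refine sub_eq_zero.1 (hF _ (le_antisymm ?_ (τ.n2_nonneg _)))
  refine ge_of_tendsto' (by simpa using Tendsto.add h h') fun n => ?_
  rw [τ.n2_sub_rev (x n) y]
  exact τ.n2_triangle _ _ _

lemma Lim.eq_of_eventually (hF : τ.Faithful) {x : ℕ → A} {y y' : A} (h : τ.Lim x y) (N : ℕ)
    (h' : ∀ n ≥ N, x n = y') : y = y' :=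
  h.unique hF (tendsto_const_nhds.congr' (by
    filter_upwards [eventually_ge_atTop N] with n hn
    simp [h' n hn]))

lemma Lim.tr {x : ℕ → A} {y : A} (h : τ.Lim x y) : Tendsto (fun n => τ (x n)) atTop (𝓝 (τ y)) := by
  rw [tendsto_iff_norm_sub_tendsto_zero]
  exact squeeze_zero (fun _ => norm_nonneg _)
    (fun n => by rw [← τ.tr_sub]; exact τ.norm_tr_le_n2 _) h

lemma Lim.tr_re {x : ℕ → A} {y : A} (h : τ.Lim x y) :
    Tendsto (fun n => (τ (x n)).re) atTop (𝓝 (τ y).re) :=
  (Complex.continuous_re.tendsto _).comp h.tr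

lemma Lim.n2 {x : ℕ → A} {y : A} (h : τ.Lim x y) :
    Tendsto (fun n => τ.n2 (x n)) atTop (𝓝 (τ.n2 y)) := by
  rw [tendsto_iff_norm_sub_tendsto_zero]
  exact squeeze_zero (fun _ => norm_nonneg _) (fun n => τ.abs_n2_sub_n2_le _ _) h

lemma Complete.lim_of_phi (hC : τ.Complete) {x : ℕ → A} {K : ℝ} (hK : ∀ n, ‖x n‖ ≤ K)
    (φ : ℕ → ℝ) {C : ℝ} (hφ : ∀ n, φ n ≤ C)
    (h : ∀ m n, m ≤ n → τ.n2 (x n - x m) ^ 2 ≤ φ n - φ m) : ∃ y, ‖y‖ ≤ K ∧ τ.Lim x y := by
  refine hC x K hK fun ε hε => ?_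
  have hb : BddAbove (Set.range φ) := ⟨C, by rintro _ ⟨n, rfl⟩; exact hφ n⟩
  obtain ⟨_, ⟨N, rfl⟩, hN⟩ := exists_lt_of_lt_csSup (Set.range_nonempty φ)
    (sub_lt_self (sSup (Set.range φ)) (pow_pos hε 2))
  have key : ∀ m n, N ≤ m → m ≤ n → τ.n2 (x n - x m) < ε := fun m n hm hmn => by
    have h1 := h m n hmn
    have h2 := h N m hm
    have h3 := le_csSup hb ⟨n, rfl⟩
    have h4 := sq_nonneg (τ.n2 (x m - x N))
    exact lt_of_pow_lt_pow_left₀ 2 hε.le (by linarith)
  refine ⟨N, fun m hm n hn => ?_⟩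
  rcases le_total m n with h | h
  · rw [τ.n2_sub_rev]; exact key m n hm h
  · exact key n m hn h

lemma WClosed.isClosed {S : Set A} (h : τ.WClosed S) : IsClosed S := by
  refine isClosed_of_closure_subset fun y hy => ?_
  obtain ⟨x, hx, hl⟩ := mem_closure_iff_seq_limit.1 hy
  obtain ⟨C, hC⟩ := (Metric.isBounded_range_of_tendsto x hl).exists_norm_le
  refine h x C y hx (fun n => hC _ ⟨n, rfl⟩) ?_
  exact squeeze_zero (fun _ => τ.n2_nonneg _) (fun n => τ.n2_le_norm _)
    (tendsto_iff_norm_sub_tendsto_zero.1 hl)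

lemma WClosed.inf_centralizer (hF : τ.Faithful) {Q : StarSubalgebra ℂ A} (h : τ.WClosed Q)
    {p : A} (hp : star p = p) :
    τ.WClosed (Q ⊓ StarSubalgebra.centralizer ℂ {p} : StarSubalgebra ℂ A) := by
  intro x C y hx hC hl
  have hl' : τ.Lim x y := hl
  refine StarSubalgebra.mem_inf.2 ⟨h x C y (fun n => (StarSubalgebra.mem_inf.1 (hx n)).1) hC hl, ?_⟩
  have e : ∀ n, p * x n = x n * p := fun n => by
    simpa [hp] using (StarSubalgebra.mem_centralizer_iff ℂ).1 (StarSubalgebra.mem_inf.1 (hx n)).2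
  have : p * y = y * p := (hl'.mul_left p).unique hF (by simpa only [e] using hl'.mul_right p)
  simpa [StarSubalgebra.mem_centralizer_iff, hp] using this

/-! ### Projections -/

lemma tr_proj {p : A} (hp : IsStarProjection p) : τ p = ((τ.n2 p ^ 2 : ℝ) : ℂ) := by
  rw [Complex.ofReal_pow, n2_sq_complex, hp.isSelfAdjoint.star_eq, hp.isIdempotentElem.eq]

lemma re_tr_proj {p : A} (hp : IsStarProjection p) : (τ p).re = τ.n2 p ^ 2 := by
  rw [tr_proj hp, Complex.ofReal_re]

lemma tr_proj_re {p : A} (hp : IsStarProjection p) : τ p = ((τ p).re : ℂ) := by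
  rw [re_tr_proj hp, tr_proj hp]

lemma re_tr_proj_nonneg {p : A} (hp : IsStarProjection p) : 0 ≤ (τ p).re := by
  rw [re_tr_proj hp]; positivity

lemma re_tr_proj_pos (hF : τ.Faithful) {p : A} (hp : IsStarProjection p) (h : p ≠ 0) :
    0 < (τ p).re := by
  rw [re_tr_proj hp]
  exact pow_pos (lt_of_le_of_ne (τ.n2_nonneg _) fun h' => h (hF _ h'.symm)) 2

lemma re_tr_proj_le_one {p : A} (hp : IsStarProjection p) : (τ p).re ≤ 1 := by
  have := re_tr_proj_nonneg (τ := τ) hp.one_sub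
  rw [τ.tr_sub, τ.tr_one, Complex.sub_re, Complex.one_re] at this
  linarith

lemma proj_comm {p r : A} (hp : IsStarProjection p) (hr : IsStarProjection r) (h : r * p = r) :
    p * r = r := by
  have := congrArg star h
  rwa [star_mul, hp.isSelfAdjoint.star_eq, hr.isSelfAdjoint.star_eq] at this

lemma sym_unitary {e : A} (he : IsStarProjection e) : (2 : ℂ) • e - 1 ∈ unitary A := by
  have h1 : star ((2 : ℂ) • e - 1) = (2 : ℂ) • e - 1 := by simp [he.isSelfAdjoint.star_eq]
  have h2 : ((2 : ℂ) • e - 1) * ((2 : ℂ) • e - 1) = 1 := by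
    simp only [sub_mul, mul_sub, smul_mul_assoc, mul_smul_comm, he.isIdempotentElem.eq, one_mul,
      mul_one]
    module
  rw [Unitary.mem_iff, h1]; exact ⟨h2, h2⟩

section order
variable [PartialOrder A] [StarOrderedRing A]

lemma re_tr_nonneg {a : A} (ha : 0 ≤ a) : 0 ≤ (τ a).re := by
  obtain ⟨b, rfl⟩ := CStarAlgebra.nonneg_iff_eq_star_mul_self.mp ha
  exact τ.re_pos b

/-- Support projection of a positive contraction. -/
lemma exists_supp (hF : τ.Faithful) (hC : τ.Complete) {B : StarSubalgebra ℂ A}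
    (hB : τ.WClosed B) {a : A} (haB : a ∈ B) (ha : 0 ≤ a) (ha1 : a ≤ 1) :
    ∃ e ∈ B, IsStarProjection e ∧ e * a = a ∧ ∀ y, y * a = 0 → y * e = 0 := by
  set b := 1 - a with hb
  have hb0 : 0 ≤ b := sub_nonneg.2 ha1
  have hb1 : b ≤ 1 := sub_le_self _ ha
  have hanti := CStarAlgebra.pow_antitone hb0 hb1
  have hp0 : ∀ n, 0 ≤ b ^ n := fun n => CStarAlgebra.pow_nonneg hb0 n
  have hp1 : ∀ n, b ^ n ≤ 1 := fun n => by simpa using hanti (Nat.zero_le n)
  have hn : ∀ n, ‖b ^ n‖ ≤ 1 := fun n => (CStarAlgebra.norm_le_one_iff_of_nonneg _ (hp0 n)).2 (hp1 n)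
  obtain ⟨p, -, hl⟩ := hC.lim_of_phi hn (fun n => -(τ (b ^ n)).re) (C := 0)
    (fun n => neg_nonpos.2 (re_tr_nonneg (hp0 n))) fun m n hmn => by
      have h0 : 0 ≤ b ^ m - b ^ n := sub_nonneg.2 (hanti hmn)
      have h1 : b ^ m - b ^ n ≤ 1 := (sub_le_self _ (hp0 n)).trans (hp1 m)
      have h2 := re_tr_nonneg (τ := τ) (sub_nonneg.2 (CStarAlgebra.pow_antitone h0 h1 one_le_two))
      rw [τ.n2_sub_rev, n2_sq, h0.isSelfAdjoint.star_eq]
      simp only [pow_one, τ.tr_sub, Complex.sub_re, pow_two] at h2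
      linarith
  have hpB : p ∈ B := hB _ 1 p (fun n => pow_mem (sub_mem (one_mem B) haB) n) hn hl
  have hshift : τ.Lim (fun n => b ^ n * b) p := by
    simpa only [pow_succ, Lim] using (tendsto_add_atTop_iff_nat 1).2 hl
  have h1 : p * b = p := (hl.mul_right b).unique hF hshift
  have h2 : ∀ n, p * b ^ n = p := fun n => by
    induction n with
    | zero => simp
    | succ n ih => rw [pow_succ, ← mul_assoc, ih, h1]
  have h3 : p * p = p := (hl.mul_left p).eq_of_eventually hF 0 fun n _ => h2 n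
  have h4 : star p = p := hl.star.unique hF (by
    simpa only [fun n => (hp0 n).isSelfAdjoint.star_eq] using hl)
  refine ⟨1 - p, sub_mem (one_mem B) hpB, IsStarProjection.one_sub ⟨h3, h4⟩, ?_, fun y hy => ?_⟩
  · rw [hb, mul_sub, mul_one, sub_eq_self] at h1
    rw [sub_mul, one_mul, h1, sub_zero]
  · have h5 : ∀ n, y * b ^ n = y := fun n => by
      induction n with
      | zero => simp
      | succ n ih => rw [pow_succ', ← mul_assoc, hb, mul_sub, mul_one, hy, sub_zero, ← hb, ih]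
    rw [mul_sub, mul_one, (hl.mul_left y).eq_of_eventually hF 0 fun n _ => h5 n, sub_self]

/-- Support projection of `f(h)` for a function with values in `[0, 1]`. -/
lemma exists_supp_cfc (hF : τ.Faithful) (hC : τ.Complete) {B : StarSubalgebra ℂ A}
    (hB : τ.WClosed B) {h : A} (hhB : h ∈ B) (f : ℝ → ℝ) (h0 : ∀ t, 0 ≤ f t) (h1 : ∀ t, f t ≤ 1) :
    ∃ e ∈ B, IsStarProjection e ∧ e * cfc f h = cfc f h ∧ ∀ y, y * cfc f h = 0 → y * e = 0 :=
  have := hB.isClosed
  exists_supp hF hC hB (cfc_mem (𝕜' := ℂ) f hhB) (cfc_nonneg fun t _ => h0 t)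
    (cfc_le_one f h fun t _ => h1 t)

/-- A self-adjoint contraction is the mean of a symmetry and a self-adjoint contraction. -/
lemma exists_sym (hF : τ.Faithful) (hC : τ.Complete) {B : StarSubalgebra ℂ A}
    (hB : τ.WClosed B) {h : A} (hhB : h ∈ B) (hs : IsSelfAdjoint h) (hn : ‖h‖ ≤ 1) :
    ∃ e ∈ B, IsStarProjection e ∧ ‖(2 : ℂ) • h - ((2 : ℂ) • e - 1)‖ ≤ 1 := by
  have := τ.nontrivial
  have hsp : ∀ t ∈ spectrum ℝ h, |t| ≤ 1 := fun t ht => (spectrum.norm_le_norm_of_mem ht).trans hn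
  let f : ℝ → ℝ := fun t => min (max t 0) 1
  let g : ℝ → ℝ := fun t => min (max (-t) 0) 1
  obtain ⟨e, heB, he, h1, h2⟩ := exists_supp_cfc hF hC hB hhB f
    (fun t => le_min (le_max_right _ _) zero_le_one) fun t => min_le_right _ _
  have hfg : cfc g h * cfc f h = 0 := by
    rw [← cfc_mul .., ← cfc_const_zero ℝ h]
    refine cfc_congr fun t _ => ?_
    rcases le_total t 0 with ht | ht
    · simp [f, ht]
    · simp [g, ht]
  have hsub : h = cfc f h - cfc g h := by
    rw [← cfc_sub ..]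
    refine (cfc_id' ℝ h).symm.trans (cfc_congr fun t ht => ?_)
    have := abs_le.1 (hsp t ht)
    rcases le_total t 0 with ht | ht
    · simp [f, g, ht, min_eq_left (show -t ≤ 1 by linarith)]
    · simp [f, g, ht, min_eq_left this.2]
  have hg : IsSelfAdjoint (cfc g h) := cfc_predicate _ _
  have hf : IsSelfAdjoint (cfc f h) := cfc_predicate _ _
  have h3 := h2 _ hfg
  have h4 : e * cfc g h = 0 := by
    have := congrArg star h3
    rwa [star_mul, he.isSelfAdjoint.star_eq, hg.star_eq, star_zero] at this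
  have h5 : cfc f h * e = cfc f h := by
    have := congrArg star h1
    rwa [star_mul, he.isSelfAdjoint.star_eq, hf.star_eq] at this
  have hfg' : cfc f h * cfc g h = 0 := by rw [← h5, mul_assoc, h4, mul_zero]
  refine ⟨e, heB, he, ?_⟩
  let k : ℝ → ℝ := fun t => 2 * (f t + g t) - 1
  have hk : cfc k h = (2 : ℂ) • (cfc f h + cfc g h) - 1 := by
    rw [cfc_sub .., cfc_const_mul .., cfc_add .., cfc_const_one ℝ h, ← Complex.coe_smul]; rfl
  have hkn : ‖cfc k h‖ ≤ 1 := norm_cfc_le zero_le_one fun t ht => by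
    have := abs_le.1 (hsp t ht)
    rw [Real.norm_eq_abs, abs_le]
    rcases le_total t 0 with ht | ht
    · simp only [k, f, g, max_eq_right ht, max_eq_left (neg_nonneg.2 ht), min_eq_left zero_le_one,
        min_eq_left (show -t ≤ 1 by linarith)]
      constructor <;> linarith
    · simp only [k, f, g, max_eq_left ht, max_eq_right (neg_nonpos.2 ht), min_eq_left zero_le_one,
        min_eq_left this.2]
      constructor <;> linarith
  have hks : IsSelfAdjoint (cfc k h) := cfc_predicate _ _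
  have hsa : IsSelfAdjoint ((2 : ℂ) • h - ((2 : ℂ) • e - 1)) := by
    simp [IsSelfAdjoint, he.isSelfAdjoint.star_eq, hs.star_eq]
  have hsq : ((2 : ℂ) • h - ((2 : ℂ) • e - 1)) * ((2 : ℂ) • h - ((2 : ℂ) • e - 1)) =
      cfc k h * cfc k h := by
    rw [hk]
    generalize cfc f h = P at *
    generalize cfc g h = N at *
    rw [hsub]
    simp only [sub_mul, mul_sub, add_mul, mul_add, smul_mul_assoc, mul_smul_comm,
      he.isIdempotentElem.eq, one_mul, mul_one, h1, h3, h4, h5, hfg, hfg']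
    module
  have e1 := hsa.norm_mul_self
  rw [hsq, hks.norm_mul_self] at e1
  exact (pow_le_pow_iff_left₀ (norm_nonneg _) (norm_nonneg _) two_ne_zero).1 e1.ge |>.trans hkn

/-- A 2-norm seminorm is controlled on self-adjoint contractions by its values on symmetries. -/
lemma n2_le_of_sym (hF : τ.Faithful) (hC : τ.Complete) {B : StarSubalgebra ℂ A}
    (hB : τ.WClosed B) (L : A →ₗ[ℂ] A) {C κ : ℝ} (hL : ∀ x, ‖x‖ ≤ 1 → τ.n2 (L x) ≤ C)
    (hκ : ∀ e ∈ B, IsStarProjection e → τ.n2 (L ((2 : ℂ) • e - 1)) ≤ κ) {h : A} (hhB : h ∈ B)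
    (hs : IsSelfAdjoint h) (hn : ‖h‖ ≤ 1) : τ.n2 (L h) ≤ κ := by
  have hκ0 : 0 ≤ κ := (τ.n2_nonneg _).trans (hκ 0 (zero_mem B) (IsStarProjection.zero A))
  have key : ∀ n : ℕ, ∀ h ∈ B, IsSelfAdjoint h → ‖h‖ ≤ 1 → τ.n2 (L h) ≤ κ + C * (1 / 2) ^ n := by
    intro n
    induction n with
    | zero => intro h _ _ hn; have := hL h hn; simp; linarith
    | succ n ih =>
      intro h hhB hs hn
      obtain ⟨e, heB, he, h1⟩ := exists_sym hF hC hB hhB hs hn
      have h2 := ih _ (sub_mem (SMulMemClass.smul_mem _ hhB)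
        (sub_mem (SMulMemClass.smul_mem _ heB) (one_mem B)))
        (by simp [IsSelfAdjoint, he.isSelfAdjoint.star_eq, hs.star_eq]) h1
      have h3 := hκ e heB he
      have h4 := τ.n2_add_le (L ((2 : ℂ) • h - ((2 : ℂ) • e - 1))) (L ((2 : ℂ) • e - 1))
      rw [← map_add, sub_add_cancel, map_smul, n2_smul, Complex.norm_two] at h4
      rw [pow_succ]; linarith
  refine ge_of_tendsto' (f := fun n : ℕ => κ + C * (1 / 2) ^ n) (x := atTop) ?_
    fun n => key n h hhB hs hn
  simpa using ((tendsto_pow_atTop_nhds_zero_of_lt_one (r := (1 / 2 : ℝ)) (by norm_num)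
    (by norm_num)).const_mul C).const_add κ

omit [PartialOrder A] [StarOrderedRing A] in
lemma exists_re_im {B : StarSubalgebra ℂ A} {x : A} (hx : x ∈ B) :
    ∃ a ∈ B, ∃ b ∈ B, IsSelfAdjoint a ∧ IsSelfAdjoint b ∧ ‖a‖ ≤ ‖x‖ ∧ ‖b‖ ≤ ‖x‖ ∧
      x = a + Complex.I • b := by
  refine ⟨realPart x, ?_, imaginaryPart x, ?_, (realPart x).2, (imaginaryPart x).2,
    realPart.norm_le x, imaginaryPart.norm_le x, (realPart_add_I_smul_imaginaryPart x).symm⟩
  · rw [realPart_apply_coe, ← Complex.coe_smul]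
    exact SMulMemClass.smul_mem _ (add_mem hx (star_mem hx))
  · rw [imaginaryPart_apply_coe, ← Complex.coe_smul]
    exact SMulMemClass.smul_mem _ (SMulMemClass.smul_mem _ (sub_mem hx (star_mem hx)))

/-- A bounded linear map that kills all projections of `B` kills `B`. -/
lemma lin_eq_zero (hF : τ.Faithful) (hC : τ.Complete) {B : StarSubalgebra ℂ A}
    (hB : τ.WClosed B) (L : A →ₗ[ℂ] A) {C : ℝ} (hL : ∀ x, ‖x‖ ≤ 1 → τ.n2 (L x) ≤ C)
    (h0 : ∀ e ∈ B, IsStarProjection e → L e = 0) {x : A} (hx : x ∈ B) : L x = 0 := by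
  have key : ∀ h ∈ B, IsSelfAdjoint h → L h = 0 := by
    intro h hhB hs
    have hpos : 0 < ‖h‖ + 1 := by positivity
    have h1 := n2_le_of_sym hF hC hB L hL (κ := 0) (fun e he he' => by
      simp [h0 e he he', h0 1 (one_mem B) (IsStarProjection.one A)])
      (h := (((‖h‖ + 1)⁻¹ : ℝ) : ℂ) • h) (SMulMemClass.smul_mem _ hhB)
      (by simp [IsSelfAdjoint, hs.star_eq]) (by
        rw [norm_smul, Complex.norm_real, Real.norm_of_nonneg (by positivity), inv_mul_le_iff₀ hpos]
        linarith)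
    have h2 := hF _ (le_antisymm h1 (τ.n2_nonneg _))
    rw [map_smul, smul_eq_zero] at h2
    exact h2.resolve_left (by exact_mod_cast (inv_pos.2 hpos).ne')
  obtain ⟨a, ha, b, hb, ha', hb', -, -, rfl⟩ := exists_re_im hx
  simp [key a ha ha', key b hb hb']

/-- The commutator with `z`. -/
def commL (z : A) : A →ₗ[ℂ] A := LinearMap.mulRight ℂ z - LinearMap.mulLeft ℂ z

omit [PartialOrder A] [StarOrderedRing A] in
lemma commL_apply (z x : A) : commL z x = x * z - z * x := rfl

omit [PartialOrder A] [StarOrderedRing A] in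
lemma n2_commL_le (z x : A) (hx : ‖x‖ ≤ 1) : τ.n2 (commL z x) ≤ τ.n2 z + τ.n2 z :=
  (τ.n2_sub_le _ _).trans (add_le_add (τ.n2_mul_le_of_norm_le_one_left hx _)
    (τ.n2_mul_le_of_norm_le_one_right _ hx))

/-- Averaging over the unitary group of an irreducible subalgebra. -/
lemma averaging (hF : τ.Faithful) (hC : τ.Complete) {Q M : StarSubalgebra ℂ A} (hQM : Q ≤ M)
    (hQ : τ.WClosed Q) (hM : τ.WClosed M) (hirr : Irr Q M) {y : A} (hy : y ∈ M) (b : A) {C : ℝ}
    (h : ∀ g ∈ Q, g ∈ unitary A → (τ (b * (g * y * star g))).re ≤ C) : (τ b * τ y).re ≤ C := by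
  let K : Set A := {z | z ∈ M ∧ ‖z‖ ≤ ‖y‖ ∧ τ z = τ y ∧
    ∀ g ∈ Q, g ∈ unitary A → (τ (b * (g * z * star g))).re ≤ C}
  have hyK : y ∈ K := ⟨hy, le_rfl, rfl, h⟩
  have hmid : ∀ z ∈ K, ∀ w ∈ K, (2 : ℂ)⁻¹ • (z + w) ∈ K := by
    rintro z ⟨h1, h2, h3, h4⟩ w ⟨h5, h6, h7, h8⟩
    refine ⟨SMulMemClass.smul_mem _ (add_mem h1 h5), ?_, ?_, fun g hg hg' => ?_⟩
    · have := norm_add_le z w
      rw [norm_smul, norm_inv, Complex.norm_two]; linarith
    · rw [tr_smul, tr_add, h3, h7]; ring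
    · have := h4 g hg hg'
      have := h8 g hg hg'
      simp only [mul_smul_comm, smul_mul_assoc, mul_add, add_mul, tr_smul, tr_add]
      rw [show ((2 : ℂ)⁻¹) = ((2⁻¹ : ℝ) : ℂ) by simp, Complex.add_re, Complex.re_ofReal_mul,
        Complex.re_ofReal_mul]
      linarith
  have hb : BddBelow ((fun z => τ.n2 z ^ 2) '' K) := ⟨0, by rintro _ ⟨z, -, rfl⟩; positivity⟩
  set m := sInf ((fun z => τ.n2 z ^ 2) '' K)
  have hm : ∀ z ∈ K, m ≤ τ.n2 z ^ 2 := fun z hz => csInf_le hb ⟨z, hz, rfl⟩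
  have hpar : ∀ z ∈ K, ∀ w ∈ K, τ.n2 (z - w) ^ 2 ≤ 2 * (τ.n2 z ^ 2 - m) + 2 * (τ.n2 w ^ 2 - m) := by
    intro z hz w hw
    have h1 := hm _ (hmid z hz w hw)
    rw [n2_smul, norm_inv, Complex.norm_two, mul_pow] at h1
    have h2 := τ.n2_parallelogram z w
    linarith
  have hex : ∀ n : ℕ, ∃ z ∈ K, τ.n2 z ^ 2 < m + 1 / ((n : ℝ) + 1) := fun n => by
    obtain ⟨_, ⟨z, hz, rfl⟩, h⟩ := exists_lt_of_csInf_lt (s := (fun z => τ.n2 z ^ 2) '' K)
      ⟨_, y, hyK, rfl⟩ (lt_add_of_pos_right m (Nat.one_div_pos_of_nat (n := n)))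
    exact ⟨z, hz, h⟩
  choose x hxK hx using hex
  obtain ⟨z, hzn, hl⟩ := hC x ‖y‖ (fun n => (hxK n).2.1) fun ε hε => by
    obtain ⟨N, hN⟩ := exists_nat_one_div_lt (show 0 < ε ^ 2 / 4 by positivity)
    refine ⟨N, fun i hi j hj => lt_of_pow_lt_pow_left₀ 2 hε.le ?_⟩
    have h1 := hpar _ (hxK i) _ (hxK j)
    have h2 := hx i
    have h3 := hx j
    have h4 : 1 / ((i : ℝ) + 1) ≤ 1 / ((N : ℝ) + 1) := Nat.one_div_le_one_div hi
    have h5 : 1 / ((j : ℝ) + 1) ≤ 1 / ((N : ℝ) + 1) := Nat.one_div_le_one_div hj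
    linarith
  have hl' : τ.Lim x z := hl
  have hzK : z ∈ K := by
    refine ⟨hM x _ z (fun n => (hxK n).1) (fun n => (hxK n).2.1) hl, hzn, ?_, fun g hg hg' => ?_⟩
    · exact tendsto_nhds_unique hl'.tr (by simpa only [fun n => (hxK n).2.2.1] using tendsto_const_nhds)
    · exact le_of_tendsto' (((hl'.mul_left g).mul_right (star g)).mul_left b).tr_re
        fun n => (hxK n).2.2.2 g hg hg'
  have hzm : τ.n2 z ^ 2 ≤ m := by
    refine le_of_tendsto_of_tendsto' (hl'.n2.pow 2) ?_ fun n => (hx n).le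
    simpa using tendsto_one_div_add_atTop_nhds_zero_nat (𝕜 := ℝ).const_add m
  have hfix : ∀ g ∈ Q, g ∈ unitary A → g * z = z * g := by
    intro g hg hg'
    have hn : τ.n2 (g * z * star g) = τ.n2 z := by
      rw [n2_mul_unitary _ _ (Unitary.star_mem hg'), n2_unitary_mul _ hg']
    have hK : g * z * star g ∈ K := by
      refine ⟨mul_mem (mul_mem (hQM hg) hzK.1) (star_mem (hQM hg)), ?_, ?_, fun g' h1 h2 => ?_⟩
      · rw [CStarRing.norm_mul_mem_unitary _ (Unitary.star_mem hg'),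
          CStarRing.norm_mem_unitary_mul _ hg']
        exact hzn
      · rw [tr_conj_unitary _ hg', hzK.2.2.1]
      · have := hzK.2.2.2 (g' * g) (mul_mem h1 hg) (mul_mem h2 hg')
        simpa only [star_mul, mul_assoc] using this
    have h1 := hpar _ hK _ hzK
    rw [hn] at h1
    have h2 : τ.n2 (g * z * star g - z) = 0 := by nlinarith [τ.n2_nonneg (g * z * star g - z)]
    have h3 := sub_eq_zero.1 (hF _ h2)
    conv_rhs => rw [← h3, mul_assoc, (Unitary.mem_iff.1 hg').1, mul_one]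
  obtain ⟨c, hc⟩ := hirr z hzK.1 fun q hq => by
    have := lin_eq_zero hF hC hQ (commL z) (n2_commL_le z) (fun e he he' => ?_) hq
    · exact (sub_eq_zero.1 this).symm
    · have h1 := hfix _ (sub_mem (SMulMemClass.smul_mem (2 : ℂ) he) (one_mem Q)) (sym_unitary he')
      rw [sub_mul, mul_sub, one_mul, mul_one, sub_left_inj, smul_mul_assoc, mul_smul_comm] at h1
      rw [commL_apply, smul_right_injective A two_ne_zero h1, sub_self]
  have h1 := hzK.2.2.2 1 (one_mem Q) (one_mem _)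
  have h2 := hzK.2.2.1
  rw [hc, tr_smul, tr_one, mul_one] at h2
  rwa [hc, star_one, one_mul, mul_one, mul_smul_comm, mul_one, tr_smul, h2, mul_comm] at h1

omit [PartialOrder A] [StarOrderedRing A] in
lemma exists_orthonormal (hF : τ.Faithful) {Q : StarSubalgebra ℂ A}
    (hinf : ¬ FiniteDimensional ℂ Q) (k : ℕ) :
    ∃ y : Fin k → A, (∀ i, y i ∈ Q) ∧ Orthonormal ℂ fun i => τ.toL2 (y i) := by
  induction k with
  | zero => exact ⟨Fin.elim0, fun i => i.elim0, Orthonormal.of_isEmpty _⟩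
  | succ k ih =>
    obtain ⟨y, hy, ho⟩ := ih
    obtain ⟨z, hzQ, hz⟩ : ∃ z ∈ Q, z ∉ Submodule.span ℂ (Set.range y) := by
      by_contra! h
      have := FiniteDimensional.span_of_finite ℂ (Set.finite_range y)
      exact hinf (Submodule.finiteDimensional_of_le (S₁ := Q.toSubalgebra.toSubmodule) h)
    set w := z - ∑ i, τ (star (y i) * z) • y i with hw
    have hw0 : τ.n2 w ≠ 0 := fun h => hz (by
      rw [sub_eq_zero.1 (hF _ h)]
      exact Submodule.sum_mem _ fun i _ => Submodule.smul_mem _ _ (Submodule.subset_span ⟨i, rfl⟩))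
    have hwQ : w ∈ Q := sub_mem hzQ (sum_mem fun i _ => SMulMemClass.smul_mem _ (hy i))
    refine ⟨Matrix.vecCons ((((τ.n2 w)⁻¹ : ℝ) : ℂ) • w) y, fun i => ?_, ?_⟩
    · refine Fin.cases ?_ (fun i => ?_) i
      · exact SMulMemClass.smul_mem _ hwQ
      · exact hy i
    · have e : (fun i => τ.toL2 (Matrix.vecCons ((((τ.n2 w)⁻¹ : ℝ) : ℂ) • w) y i)) =
          Matrix.vecCons (τ.toL2 ((((τ.n2 w)⁻¹ : ℝ) : ℂ) • w)) fun i => τ.toL2 (y i) := by
        funext i; refine Fin.cases rfl (fun i => rfl) i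
      rw [e, orthonormal_vecCons_iff]
      refine ⟨?_, fun i => ?_, ho⟩
      · change τ.n2 _ = 1
        rw [n2_smul, Complex.norm_real, Real.norm_of_nonneg (inv_nonneg.2 (τ.n2_nonneg _)),
          inv_mul_cancel₀ hw0]
      · rw [map_smul, inner_smul_left, ← inner_conj_symm, hw, map_sub, map_sum, inner_sub_right]
        simp only [map_smul]
        rw [ho.inner_right_fintype, inner_toL2, sub_self, map_zero, mul_zero]

/-- There are no minimal projections. -/
lemma exists_proper_sub (hF : τ.Faithful) (hC : τ.Complete) {Q : StarSubalgebra ℂ A}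
    (hQ : τ.WClosed Q) (hirr : Irr Q Q) (hinf : ¬ FiniteDimensional ℂ Q) {p : A} (hpQ : p ∈ Q)
    (hp : IsStarProjection p) (hp0 : p ≠ 0) :
    ∃ r ∈ Q, IsStarProjection r ∧ r * p = r ∧ r ≠ 0 ∧ r ≠ p := by
  by_contra! hmin
  have hpp := hp.isIdempotentElem.eq
  have hps := hp.isSelfAdjoint.star_eq
  have hd := re_tr_proj_pos hF hp hp0
  set d := (τ p).re
  have hd' : τ p = d := tr_proj_re hp
  have hd0 : (d : ℂ) ≠ 0 := by exact_mod_cast hd.ne'
  let L : A →ₗ[ℂ] A := LinearMap.mulRight ℂ p ∘ₗ LinearMap.mulLeft ℂ p -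
    ((d : ℂ)⁻¹ • τ.lin ∘ₗ LinearMap.mulLeft ℂ p).smulRight p
  have hL : ∀ x, L x = p * x * p - ((d : ℂ)⁻¹ * τ (p * x)) • p := fun x => rfl
  have hcomp : ∀ y ∈ Q, p * y * p = ((d : ℂ)⁻¹ * τ (p * y)) • p := by
    intro y hy
    have := lin_eq_zero hF hC (hQ.inf_centralizer hF hps) L (C := 1 + d⁻¹) (fun x hx => ?_)
      (fun e he he' => ?_) (x := p * y * p) ?_
    · rw [hL, sub_eq_zero, ← mul_assoc, ← mul_assoc, hpp, mul_assoc (p * y), hpp, tr_cyc, hpp]
        at this
      exact this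
    · have h1 : ‖p * x‖ ≤ 1 := (norm_mul_le _ _).trans (mul_le_one₀ hp.norm_le (norm_nonneg _) hx)
      have h2 : τ.n2 p ≤ 1 := (τ.n2_le_norm _).trans hp.norm_le
      refine (τ.n2_sub_le _ _).trans (add_le_add
        ((τ.n2_mul_le_of_norm_le_one_left h1 _).trans h2) ?_)
      change τ.n2 (((d : ℂ)⁻¹ * τ (p * x)) • p) ≤ _
      rw [n2_smul, norm_mul, norm_inv, Complex.norm_real, Real.norm_of_nonneg hd.le, mul_assoc]
      exact mul_le_of_le_one_right (inv_nonneg.2 hd.le)
        (mul_le_one₀ ((τ.norm_tr_le _).trans h1) (τ.n2_nonneg _) h2)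
    · obtain ⟨heQ, hec⟩ := StarSubalgebra.mem_inf.1 he
      have hc : p * e = e * p := by
        simpa [hps] using (StarSubalgebra.mem_centralizer_iff ℂ).1 hec
      have h1 : p * e * p = p * e := by rw [mul_assoc, ← hc, ← mul_assoc, hpp]
      rw [hL, h1]
      by_cases h0 : p * e = 0
      · simp [h0]
      · rw [hmin _ (mul_mem hpQ heQ) (hp.mul he' hc) h1 h0, hd', inv_mul_cancel₀ hd0, one_smul,
          sub_self]
    · refine StarSubalgebra.mem_inf.2 ⟨mul_mem (mul_mem hpQ hy) hpQ, ?_⟩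
      have : p * (p * y * p) = p * y * p * p := by
        rw [← mul_assoc, ← mul_assoc, hpp, mul_assoc (p * y), hpp]
      simpa [StarSubalgebra.mem_centralizer_iff, hps] using this
  obtain ⟨k, hk⟩ := exists_nat_gt (1 / d ^ 2)
  obtain ⟨y, hy, ho⟩ := exists_orthonormal hF hinf k
  have h1 : ∀ u ∈ Q, u ∈ unitary A → ∀ v ∈ Q, v ∈ unitary A →
      (τ ((∑ i, star (y i) * (u * p * star u) * y i) * (v * p * star v))).re ≤ 1 := by
    intro u hu hu' v hv hv'
    have hB := ho.sum_inner_products_le (τ.toL2 (u * p * star v)) (s := Finset.univ)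
    have hn : ‖τ.toL2 (u * p * star v)‖ ^ 2 = d := by
      change τ.n2 _ ^ 2 = _
      rw [n2_mul_unitary _ _ (Unitary.star_mem hv'), n2_unitary_mul _ hu', ← re_tr_proj hp]
    have hterm : ∀ i, τ (star (y i) * (u * p * star u) * y i * (v * p * star v)) =
        ((d⁻¹ * ‖⟪τ.toL2 (y i), τ.toL2 (u * p * star v)⟫_ℂ‖ ^ 2 : ℝ) : ℂ) := by
      intro i
      have e1 : star (y i) * (u * p * star u) * y i * (v * p * star v) =
          star (y i) * u * (p * (star u * y i * v) * p) * star v := by simp only [mul_assoc]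
      have e2 : τ (p * (star u * y i * v)) = conj (τ (star (y i) * (u * p * star v))) := by
        rw [← tr_star]
        simp only [star_mul, star_star, hps, mul_assoc]
        rw [τ.tr_comm v]; simp only [mul_assoc]
      rw [e1, hcomp _ (mul_mem (mul_mem (star_mem hu) (hy i)) hv), mul_smul_comm, smul_mul_assoc,
        tr_smul, e2, inner_toL2, mul_assoc (star (y i)), mul_assoc (star (y i)), mul_assoc,
        Complex.conj_mul']
      push_cast; rfl
    rw [Finset.sum_mul, tr_sum, Complex.re_sum]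
    simp only [hterm, Complex.ofReal_re]
    rw [← Finset.mul_sum, inv_mul_le_iff₀ hd, mul_one, ← hn]
    exact hB
  have h2 : ∀ u ∈ Q, u ∈ unitary A →
      (τ (((d : ℂ) • ∑ i, y i * star (y i)) * (u * p * star u))).re ≤ 1 := by
    intro u hu hu'
    have := averaging hF hC le_rfl hQ hQ hirr hpQ _ (h1 u hu hu')
    rw [hd', mul_comm, tr_sum] at this
    rw [smul_mul_assoc, tr_smul, Finset.sum_mul, tr_sum]
    simpa only [τ.tr_cyc (star (y _))] using this
  have h3 := averaging hF hC le_rfl hQ hQ hirr hpQ _ h2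
  have h4 : ∀ i, τ (y i * star (y i)) = 1 := fun i => by
    rw [tr_comm, ← inner_toL2, inner_self_eq_norm_sq_to_K, ho.1 i]; simp
  rw [tr_smul, tr_sum, hd'] at h3
  simp only [h4, Finset.sum_const, Finset.card_univ, Fintype.card_fin, nsmul_eq_mul, mul_one] at h3
  rw [← Complex.ofReal_natCast, ← Complex.ofReal_mul, ← Complex.ofReal_mul, Complex.ofReal_re] at h3
  rw [div_lt_iff₀ (by positivity)] at hk
  nlinarith

lemma exists_small_sub (hF : τ.Faithful) (hC : τ.Complete) {Q : StarSubalgebra ℂ A}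
    (hQ : τ.WClosed Q) (hirr : Irr Q Q) (hinf : ¬ FiniteDimensional ℂ Q) {p : A} (hpQ : p ∈ Q)
    (hp : IsStarProjection p) (hp0 : p ≠ 0) {ε : ℝ} (hε : 0 < ε) :
    ∃ r ∈ Q, IsStarProjection r ∧ r * p = r ∧ r ≠ 0 ∧ (τ r).re ≤ ε := by
  have key : ∀ n : ℕ, ∃ r ∈ Q, IsStarProjection r ∧ r * p = r ∧ r ≠ 0 ∧ (τ r).re ≤ (1 / 2) ^ n := by
    intro n
    induction n with
    | zero => exact ⟨p, hpQ, hp, hp.isIdempotentElem.eq, hp0, by simpa using re_tr_proj_le_one hp⟩
    | succ n ih =>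
      obtain ⟨r, hrQ, hr, h1, h2, h3⟩ := ih
      obtain ⟨r', hrQ', hr', h4, h5, h6⟩ := exists_proper_sub hF hC hQ hirr hinf hrQ hr h2
      have h7 : r' * p = r' := by rw [← h4, mul_assoc, h1]
      by_cases h : (τ r').re ≤ (1 / 2) ^ (n + 1)
      · exact ⟨r', hrQ', hr', h7, h5, h⟩
      · refine ⟨r - r', sub_mem hrQ hrQ', hr'.sub_of_mul_eq_left hr h4, by rw [sub_mul, h1, h7],
          sub_ne_zero.2 h6.symm, ?_⟩
        rw [tr_sub, Complex.sub_re, pow_succ] at *
        linarith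
  obtain ⟨n, hn⟩ := exists_pow_lt_of_lt_one hε (show (1 / 2 : ℝ) < 1 by norm_num)
  obtain ⟨r, h1, h2, h3, h4, h5⟩ := key n
  exact ⟨r, h1, h2, h3, h4, h5.trans hn.le⟩

/-- Subprojections of every trace. -/
lemma exists_sub_trace (hF : τ.Faithful) (hC : τ.Complete) {Q : StarSubalgebra ℂ A}
    (hQ : τ.WClosed Q) (hirr : Irr Q Q) (hinf : ¬ FiniteDimensional ℂ Q) {p : A} (hpQ : p ∈ Q)
    (hp : IsStarProjection p) {s : ℝ} (hs0 : 0 ≤ s) (hs : s ≤ (τ p).re) :
    ∃ r ∈ Q, IsStarProjection r ∧ r * p = r ∧ (τ r).re = s := by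
  obtain ⟨⟨m, hmQ, hm, hmp, hms⟩, hmax⟩ := brezis_browder
    (S := {r : A // r ∈ Q ∧ IsStarProjection r ∧ r * p = r ∧ (τ r).re ≤ s})
    (fun a b => a.1 * b.1 = a.1) (fun a => a.2.2.1.isIdempotentElem.eq)
    (fun a b c h1 h2 => by rw [← h1, mul_assoc, h2])
    ⟨0, zero_mem Q, IsStarProjection.zero A, zero_mul _, by simpa using hs0⟩
    (fun a => (τ a.1).re) s (fun a => a.2.2.2.2)
    (fun a b h => by
      have := re_tr_proj_nonneg (τ := τ) (a.2.2.1.sub_of_mul_eq_left b.2.2.1 h)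
      rw [tr_sub, Complex.sub_re] at this
      exact sub_nonneg.1 this)
    (fun x hx => by
      have hn : ∀ n, ‖(x n).1‖ ≤ 1 := fun n => (x n).2.2.1.norm_le
      obtain ⟨u, -, hl⟩ := hC.lim_of_phi hn (fun n => (τ (x n).1).re) (fun n => (x n).2.2.2.2)
        fun m n h => by
          rw [← re_tr_proj ((x m).2.2.1.sub_of_mul_eq_left (x n).2.2.1 (hx m n h)), tr_sub,
            Complex.sub_re]
      refine ⟨⟨u, hQ _ 1 u (fun n => (x n).2.1) hn hl, ⟨?_, ?_⟩, ?_, ?_⟩, fun n => ?_⟩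
      · exact (hl.mul hl hn).unique hF
          (by simpa only [fun n => (x n).2.2.1.isIdempotentElem.eq] using hl)
      · exact hl.star.unique hF (by simpa only [fun n => (x n).2.2.1.isSelfAdjoint.star_eq] using hl)
      · exact (hl.mul_right p).unique hF (by simpa only [fun n => (x n).2.2.2.1] using hl)
      · exact le_of_tendsto' hl.tr_re fun n => (x n).2.2.2.2
      · exact (hl.mul_left _).eq_of_eventually hF n fun k hk => hx n k hk)
  refine ⟨m, hmQ, hm, hmp, le_antisymm hms (not_lt.1 fun hlt => ?_)⟩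
  have hpm := hm.sub_of_mul_eq_left hp hmp
  obtain ⟨r, hrQ, hr, h1, h2, h3⟩ := exists_small_sub hF hC hQ hirr hinf (sub_mem hpQ hmQ) hpm
    (fun h => by rw [sub_eq_zero.1 h] at hs; linarith) (sub_pos.2 hlt)
  have h4 : r * m = 0 := by
    rw [← h1, mul_assoc, sub_mul, proj_comm hp hm hmp, hm.isIdempotentElem.eq, sub_self, mul_zero]
  have h5 : m * r = 0 := by
    have := congrArg star h4
    rwa [star_mul, hm.isSelfAdjoint.star_eq, hr.isSelfAdjoint.star_eq, star_zero] at this
  have h6 : r * p = r := by rwa [mul_sub, h4, sub_zero] at h1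
  have := hmax ⟨m + r, add_mem hmQ hrQ, hm.add hr h5, by rw [add_mul, hmp, h6], by
    rw [tr_add, Complex.add_re]; linarith⟩ (by
      change m * (m + r) = m
      rw [mul_add, h5, add_zero, hm.isIdempotentElem.eq])
  have h7 := re_tr_proj_pos hF hr h2
  simp only [tr_add, Complex.add_re] at this
  linarith

/-- Two nonzero projections of a factor have equivalent nonzero subprojections. -/
lemma exists_partial_isometry (hF : τ.Faithful) (hC : τ.Complete) {Q : StarSubalgebra ℂ A}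
    (hQ : τ.WClosed Q) (hirr : Irr Q Q) {p q : A} (hpQ : p ∈ Q) (hqQ : q ∈ Q)
    (hp : IsStarProjection p) (hq : IsStarProjection q) (hp0 : p ≠ 0) (hq0 : q ≠ 0) :
    ∃ w ∈ Q, w ≠ 0 ∧ w * (star w * w) = w ∧ w * p = w ∧ q * w = w := by
  obtain ⟨g, hgQ, hg⟩ : ∃ g ∈ Q, q * g * p ≠ 0 := by
    by_contra! h
    have := averaging hF hC le_rfl hQ hQ hirr hpQ q (C := 0) fun g hg _ => by
      rw [← mul_assoc, ← mul_assoc, h g hg]; simp
    rw [tr_proj_re hp, tr_proj_re hq, ← Complex.ofReal_mul, Complex.ofReal_re] at this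
    exact (mul_pos (re_tr_proj_pos hF hq hq0) (re_tr_proj_pos hF hp hp0)).not_ge this
  set x := q * g * p with hx
  have hxQ : x ∈ Q := mul_mem (mul_mem hqQ hgQ) hpQ
  have hxp : x * p = x := by rw [hx, mul_assoc, hp.isIdempotentElem.eq]
  have hqx : q * x = x := by rw [hx, ← mul_assoc, ← mul_assoc, hq.isIdempotentElem.eq]
  clear_value x
  obtain ⟨a, ha⟩ : ∃ a, a = star x * x := ⟨_, rfl⟩
  have haQ : a ∈ Q := ha ▸ mul_mem (star_mem hxQ) hxQ
  have ha0 : 0 ≤ a := ha ▸ star_mul_self_nonneg x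
  have has : IsSelfAdjoint a := ha0.isSelfAdjoint
  have hpa : (1 - p) * a = 0 := by
    have : p * star x = star x := by
      have := congrArg star hxp
      rwa [star_mul, hp.isSelfAdjoint.star_eq] at this
    rw [sub_mul, one_mul, ha, ← mul_assoc, this, sub_self]
  have han : 0 < ‖a‖ := by rw [ha, CStarRing.norm_star_mul_self]; positivity
  obtain ⟨l, hl0, hl⟩ : ∃ l : ℝ, 0 < l ∧ l < ‖a‖ := ⟨‖a‖ / 2, by positivity, by linarith⟩
  let f : ℝ → ℝ := fun t => min (max (t - l) 0) 1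
  let m : ℝ → ℝ := fun t => max t l
  have hm : ∀ t, 0 < m t := fun t => hl0.trans_le (le_max_right _ _)
  let G : ℝ → ℝ := fun t => (√(m t))⁻¹
  have hG : Continuous G := by
    refine Continuous.inv₀ (by fun_prop) fun t => (Real.sqrt_pos.2 (hm t)).ne'
  have hf : Continuous f := by fun_prop
  have hk : Continuous fun t => f t / m t := Continuous.div (by fun_prop) (by fun_prop)
    fun t => (hm t).ne'
  obtain ⟨e, heQ, he, h1, h2⟩ := exists_supp_cfc hF hC hQ haQ f
    (fun t => le_min (le_max_right _ _) zero_le_one) fun t => min_le_right _ _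
  have hcl := hQ.isClosed
  have hGs : IsSelfAdjoint (cfc G a) := cfc_predicate _ _
  have h3 : cfc G a * a * cfc G a * e = e := by
    have : (1 - cfc G a * a * cfc G a) * cfc f a = 0 := by
      rw [sub_mul, one_mul, sub_eq_zero]
      conv_rhs => enter [1, 1, 2]; rw [← cfc_id' ℝ a]
      rw [← cfc_mul G (fun t => t) a hG.continuousOn continuousOn_id,
        ← cfc_mul (fun t => G t * t) G a (hG.mul continuous_id).continuousOn hG.continuousOn,
        ← cfc_mul (fun t => G t * t * G t) f a ((hG.mul continuous_id).mul hG).continuousOn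
          hf.continuousOn]
      refine cfc_congr fun t _ => ?_
      rcases le_total t l with ht | ht
      · simp [f, ht]
      · have ht0 : 0 < t := hl0.trans_le ht
        have : (√t)⁻¹ * t * (√t)⁻¹ = 1 := by
          have := Real.mul_self_sqrt ht0.le
          have h0 := (Real.sqrt_pos.2 ht0).ne'
          field_simp
          linarith
        simp only [G, m, max_eq_left ht, this, one_mul]
    have := h2 _ this
    rwa [sub_mul, one_mul, sub_eq_zero, eq_comm] at this
  have h4 : p * e = e := by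
    have : (1 - p) * cfc f a = 0 := by
      have : cfc f a = a * cfc (fun t => f t / m t) a := by
        conv_rhs => enter [1]; rw [← cfc_id' ℝ a]
        rw [← cfc_mul (fun t => t) _ a continuousOn_id hk.continuousOn]
        refine cfc_congr fun t _ => ?_
        rcases le_total t l with ht | ht
        · simp [f, ht]
        · have ht0 : 0 < t := hl0.trans_le ht
          simp only [m, max_eq_left ht]
          field_simp
      rw [this, ← mul_assoc, hpa, zero_mul]
    have := h2 _ this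
    rwa [sub_mul, one_mul, sub_eq_zero, eq_comm] at this
  have h5 : star (x * cfc G a * e) * (x * cfc G a * e) = e := by
    have : star (x * cfc G a * e) * (x * cfc G a * e) = e * (cfc G a * a * cfc G a * e) := by
      generalize cfc G a = c at hGs
      simp only [star_mul, he.isSelfAdjoint.star_eq, hGs.star_eq, ha, mul_assoc]
    rw [this, h3, he.isIdempotentElem.eq]
  refine ⟨x * cfc G a * e, mul_mem (mul_mem hxQ (cfc_mem (𝕜' := ℂ) G haQ)) heQ, fun h0 => ?_, ?_,
    ?_, ?_⟩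
  · rw [h0, mul_zero] at h5
    rw [← h5, zero_mul] at h1
    have := τ.nontrivial
    have h6 := norm_apply_le_norm_cfc f a (CStarAlgebra.norm_mem_spectrum_of_nonneg ha0)
      hf.continuousOn has
    rw [← h1, norm_zero, norm_le_zero_iff] at h6
    have : 0 < f ‖a‖ := lt_min (lt_max_of_lt_left (by linarith)) one_pos
    exact this.ne' h6
  · rw [h5, mul_assoc, he.isIdempotentElem.eq]
  · have := congrArg star h4
    rw [star_mul, he.isSelfAdjoint.star_eq, hp.isSelfAdjoint.star_eq] at this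
    rw [mul_assoc, this]
  · rw [← mul_assoc, ← mul_assoc, hqx]

omit [PartialOrder A] [StarOrderedRing A] in
lemma proj_of_pi {v : A} (h : v * (star v * v) = v) : IsStarProjection (star v * v) :=
  ⟨by rw [IsIdempotentElem, mul_assoc, h], IsSelfAdjoint.star_mul_self v⟩

omit [PartialOrder A] [StarOrderedRing A] in
lemma proj_of_pi' {v : A} (h : v * (star v * v) = v) : IsStarProjection (v * star v) :=
  ⟨by rw [IsIdempotentElem, ← mul_assoc, mul_assoc v, h], IsSelfAdjoint.mul_star_self v⟩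

omit [PartialOrder A] [StarOrderedRing A] in
lemma norm_pi_le {v : A} (h : v * (star v * v) = v) : ‖v‖ ≤ 1 := by
  have := (proj_of_pi h).norm_le
  rw [CStarRing.norm_star_mul_self] at this
  nlinarith [norm_nonneg v]

/-- Projections of equal trace in a factor are equivalent. -/
lemma exists_equiv (hF : τ.Faithful) (hC : τ.Complete) {Q : StarSubalgebra ℂ A}
    (hQ : τ.WClosed Q) (hirr : Irr Q Q) {p q : A} (hpQ : p ∈ Q) (hqQ : q ∈ Q)
    (hp : IsStarProjection p) (hq : IsStarProjection q) (hpq : (τ p).re = (τ q).re) :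
    ∃ v ∈ Q, star v * v = p ∧ v * star v = q := by
  have hdiff : ∀ v w : A, w * (star v * v) = v →
      τ.n2 (w - v) ^ 2 = τ.n2 w ^ 2 - τ.n2 v ^ 2 ∨ ¬ v * (star v * v) = v := by
    intro v w h
    by_cases hv : v * (star v * v) = v
    · left
      have : τ (star v * w) = τ (star v * v) := by
        have h1 : star v * v * star v = star v := by
          have := congrArg star hv
          rwa [star_mul, star_mul, star_star] at this
        conv_lhs => rw [← h1, mul_assoc, tr_comm, mul_assoc, h]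
      rw [n2_sub_rev, n2_sub_sq, this, ← n2_sq]; ring
    · exact Or.inr hv
  obtain ⟨⟨m, hmQ, hm, hmp, hqm⟩, hmax⟩ := brezis_browder
    (S := {v : A // v ∈ Q ∧ v * (star v * v) = v ∧ v * p = v ∧ q * v = v})
    (fun a b => b.1 * (star a.1 * a.1) = a.1 ∧ star b.1 * a.1 = star a.1 * a.1)
    (fun a => ⟨a.2.2.1, rfl⟩)
    (fun a b c h1 h2 => by
      have h3 : star b.1 * b.1 * (star a.1 * a.1) = star a.1 * a.1 := by
        rw [mul_assoc, h1.1, h1.2]
      constructor
      · rw [← h3, ← mul_assoc, h2.1, h1.1]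
      · conv_lhs => rw [← h1.1, ← mul_assoc, h2.2, h3])
    ⟨0, zero_mem Q, by simp, by simp, by simp⟩ (fun a => τ.n2 a.1 ^ 2) 1
    (fun a => pow_le_one₀ (τ.n2_nonneg _) ((τ.n2_le_norm _).trans (norm_pi_le a.2.2.1)))
    (fun a b h => by
      have := (hdiff _ _ h.1).resolve_right (not_not.2 a.2.2.1)
      nlinarith [sq_nonneg (τ.n2 (b.1 - a.1))])
    (fun x hx => by
      have hn : ∀ n, ‖(x n).1‖ ≤ 1 := fun n => norm_pi_le (x n).2.2.1
      obtain ⟨u, -, hl⟩ := hC.lim_of_phi hn (fun n => τ.n2 (x n).1 ^ 2)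
        (fun n => pow_le_one₀ (τ.n2_nonneg _) ((τ.n2_le_norm _).trans (hn n)))
        fun m n h => ((hdiff _ _ (hx m n h).1).resolve_right (not_not.2 (x m).2.2.1)).le
      refine ⟨⟨u, hQ _ 1 u (fun n => (x n).2.1) hn hl, ?_, ?_, ?_⟩, fun n => ⟨?_, ?_⟩⟩
      · exact (hl.mul (hl.star.mul hl (C := 1) (by simpa using hn)) hn).unique hF
          (by simpa only [fun n => (x n).2.2.1] using hl)
      · exact (hl.mul_right p).unique hF (by simpa only [fun n => (x n).2.2.2.1] using hl)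
      · exact (hl.mul_left q).unique hF (by simpa only [fun n => (x n).2.2.2.2] using hl)
      · exact (hl.mul_right _).eq_of_eventually hF n fun k hk => (hx n k hk).1
      · exact (hl.star.mul_right _).eq_of_eventually hF n fun k hk => (hx n k hk).2)
  have hP := proj_of_pi hm
  have hR := proj_of_pi' hm
  have hPp : star m * m * p = star m * m := by rw [mul_assoc, hmp]
  have hqR : q * (m * star m) = m * star m := by rw [← mul_assoc, hqm]
  have hp' := hP.sub_of_mul_eq_left hp hPp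
  have hq' := hR.sub_of_mul_eq_right hq hqR
  have htr : (τ (p - star m * m)).re = (τ (q - m * star m)).re := by
    rw [tr_sub, tr_sub, Complex.sub_re, Complex.sub_re, hpq, tr_comm]
  by_cases h0 : p - star m * m = 0
  · refine ⟨m, hmQ, (sub_eq_zero.1 h0).symm, (sub_eq_zero.1 ?_).symm⟩
    by_contra h1
    have := re_tr_proj_pos hF hq' h1
    rw [← htr, h0] at this
    simp at this
  exfalso
  have h1 : q - m * star m ≠ 0 := fun h1 => by
    have := re_tr_proj_pos hF hp' h0
    rw [htr, h1] at this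
    simp at this
  obtain ⟨w, hwQ, hw0, hw, h2, h3⟩ := exists_partial_isometry hF hC hQ hirr
    (sub_mem hpQ (mul_mem (star_mem hmQ) hmQ)) (sub_mem hqQ (mul_mem hmQ (star_mem hmQ)))
    hp' hq' h0 h1
  have hm' : star m * (m * star m) = star m := by
    have := congrArg star hm
    rwa [star_mul, star_mul, star_star, mul_assoc] at this
  have hpm : p * star m = star m := by
    have := congrArg star hmp
    rwa [star_mul, hp.isSelfAdjoint.star_eq] at this
  have hmq : star m * q = star m := by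
    have := congrArg star hqm
    rwa [star_mul, hq.isSelfAdjoint.star_eq] at this
  have h4 : w * star m = 0 := by
    rw [← h2, mul_assoc, sub_mul, hpm, mul_assoc, hm', sub_self, mul_zero]
  have h5 : star m * w = 0 := by
    rw [← h3, ← mul_assoc, mul_sub, hmq, hm', sub_self, zero_mul]
  have h6 : m * star w = 0 := by simpa using congrArg star h4
  have h7 : star w * m = 0 := by simpa using congrArg star h5
  have h8 : w * p = w := by rwa [mul_sub, ← mul_assoc, h4, zero_mul, sub_zero] at h2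
  have h9 : q * w = w := by rwa [sub_mul, mul_assoc, h5, mul_zero, sub_zero] at h3
  have := hmax ⟨m + w, add_mem hmQ hwQ, by
      rw [star_add, add_mul (star m), mul_add (star m), mul_add (star w), h5, h7, add_zero,
        zero_add, add_mul, mul_add, mul_add, hm, hw, ← mul_assoc, ← mul_assoc, h4, h6]
      simp, by rw [add_mul, hmp, h8], by rw [mul_add, hqm, h9]⟩
    ⟨by
      change (m + w) * (star m * m) = m
      rw [add_mul, hm, ← mul_assoc, h4, zero_mul, add_zero], by
      change star (m + w) * m = star m * m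
      rw [star_add, add_mul, h7, add_zero]⟩
  simp only [n2_add_sq, h5, tr_zero, Complex.zero_re] at this
  exact hw0 (hF _ (by nlinarith [τ.n2_nonneg w]))

end order

/-- The cutting property holds for every complete faithful trace. -/
theorem cutProp (τ : TrState A) (hF : τ.Faithful) (hC : τ.Complete) : τ.CutProp := by
  let := CStarAlgebra.spectralOrder A
  have := CStarAlgebra.spectralOrderedRing A
  intro Q M hQM hQ hM hirr hinf y hy hy0
  have hirrQ : Irr Q Q := fun z hz => hirr z (hQM hz)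
  -- the bilinear mass of `y` between two projections
  let μ : A → A → ℝ := fun p q => (τ (star y * p * y * q)).re
  have μpos : ∀ p q, IsStarProjection p → IsStarProjection q → 0 ≤ μ p q := fun p q hp hq => by
    have := τ.re_pos (p * y * q)
    rw [star_mul, star_mul, hp.isSelfAdjoint.star_eq, hq.isSelfAdjoint.star_eq, mul_assoc, tr_comm]
      at this
    simp only [mul_assoc, hq.isIdempotentElem.eq] at this
    rw [← mul_assoc p, hp.isIdempotentElem.eq] at this
    simpa only [μ, mul_assoc] using this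
  have μaddl : ∀ p p' q, μ (p + p') q = μ p q + μ p' q := fun p p' q => by
    simp only [μ, mul_add, add_mul, tr_add, Complex.add_re]
  have μaddr : ∀ p q q', μ p (q + q') = μ p q + μ p q' := fun p q q' => by
    simp only [μ, mul_add, tr_add, Complex.add_re]
  have hoff : ∀ p, IsStarProjection p →
      τ.n2 (commL y p) ^ 2 = μ p (1 - p) + μ (1 - p) p := fun p hp => by
    have e1 : τ (p * star y * (y * p)) = τ (star y * y * p) := by
      rw [mul_assoc, tr_comm, mul_assoc, mul_assoc, hp.isIdempotentElem.eq, mul_assoc]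
    have e2 : τ (p * star y * (p * y)) = τ (star y * p * y * p) := by
      rw [mul_assoc, tr_comm]; simp only [mul_assoc]
    have e3 : star y * p * (p * y) = star y * p * y := by
      rw [mul_assoc, ← mul_assoc p, hp.isIdempotentElem.eq, mul_assoc]
    rw [n2_sq, commL_apply]
    simp only [μ, star_sub, star_mul, hp.isSelfAdjoint.star_eq, sub_mul, mul_sub, tr_sub,
      Complex.sub_re, mul_one, e1, e2, e3, ← mul_assoc (star y * p) y p]
    ring
  have hone : commL y 1 = 0 := by simp [commL_apply]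
  -- a projection of trace at most one half that does not commute with `y`
  obtain ⟨r, hrQ, hr, hr2, hry⟩ : ∃ r ∈ Q, IsStarProjection r ∧ (τ r).re ≤ 1 / 2 ∧
      τ.n2 y / 8 ≤ τ.n2 (commL y r) := by
    by_contra! hcon
    have hy' : 0 < τ.n2 y := by
      simpa using hcon 0 (zero_mem Q) (IsStarProjection.zero A) (by simp)
    have h1 : ∀ e ∈ Q, IsStarProjection e → τ.n2 (commL y ((2 : ℂ) • e - 1)) ≤ τ.n2 y / 4 := by
      intro e heQ he
      rw [map_sub, hone, sub_zero, map_smul, n2_smul, Complex.norm_two]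
      by_cases h : (τ e).re ≤ 1 / 2
      · linarith [hcon e heQ he h]
      · have := hcon (1 - e) (sub_mem (one_mem Q) heQ) he.one_sub (by
          rw [tr_sub, tr_one, Complex.sub_re, Complex.one_re]; linarith)
        rw [map_sub, hone, zero_sub, n2_neg] at this
        linarith
    have h2 := averaging hF hC hQM hQ hM hirr hy (-star y) (C := -(τ.n2 y ^ 2 / 2))
      fun g hg hg' => by
        obtain ⟨a, ha, b, hb, ha', hb', han, hbn, e⟩ := exists_re_im hg
        rw [τ.norm_unitary hg'] at han hbn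
        have h3 := n2_le_of_sym hF hC hQ (commL y) (n2_commL_le y) h1 ha ha' han
        have h4 := n2_le_of_sym hF hC hQ (commL y) (n2_commL_le y) h1 hb hb' hbn
        have h5 : τ.n2 (commL y g) ≤ τ.n2 y / 2 := by
          have := τ.n2_add_le (commL y a) (Complex.I • commL y b)
          rw [n2_smul, Complex.norm_I, ← map_smul, ← map_add, ← e] at this
          linarith
        rw [← τ.n2_mul_unitary _ (Unitary.star_mem hg'), commL_apply, sub_mul, mul_assoc y,
          (Unitary.mem_iff.1 hg').2, mul_one, n2_sub_rev] at h5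
        have h6 := τ.n2_sub_sq y (g * y * star g)
        rw [n2_mul_unitary _ _ (Unitary.star_mem hg'), n2_unitary_mul _ hg'] at h6
        rw [neg_mul, tr_neg, Complex.neg_re]
        nlinarith [τ.n2_nonneg (y - g * y * star g)]
    rw [hy0, mul_zero, Complex.zero_re] at h2
    nlinarith
  -- enlarge it to a projection of trace one half
  obtain ⟨e, heQ, he, he2, hey⟩ : ∃ e ∈ Q, IsStarProjection e ∧ (τ e).re = 1 / 2 ∧
      τ.n2 y ^ 2 / 128 ≤ τ.n2 (commL y e) ^ 2 := by
    have h0 := re_tr_proj_nonneg (τ := τ) hr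
    obtain ⟨r₁, h₁Q, h₁, h₁r, h₁t⟩ := exists_sub_trace hF hC hQ hirrQ hinf
      (sub_mem (one_mem Q) hrQ) hr.one_sub (s := 1 / 2 - (τ r).re) (by linarith)
      (by rw [tr_sub, tr_one, Complex.sub_re, Complex.one_re]; linarith)
    have hc := h₁.sub_of_mul_eq_left hr.one_sub h₁r
    obtain ⟨r₂, h₂Q, h₂, h₂r, h₂t⟩ := exists_sub_trace hF hC hQ hirrQ hinf
      (sub_mem (sub_mem (one_mem Q) hrQ) h₁Q) hc (s := 1 / 2 - (τ r).re) (by linarith)
      (by rw [tr_sub, tr_sub, tr_one, Complex.sub_re, Complex.sub_re, Complex.one_re]; linarith)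
    have h₃ := h₂.sub_of_mul_eq_left hc h₂r
    set r₃ := 1 - r - r₁ - r₂ with hr₃
    have o₁ : r * r₁ = 0 := by
      rw [← proj_comm hr.one_sub h₁ h₁r, ← mul_assoc, hr.mul_one_sub_self, zero_mul]
    have o₂ : r * r₂ = 0 := by
      rw [← proj_comm hc h₂ h₂r, ← mul_assoc, mul_sub, hr.mul_one_sub_self, o₁, sub_zero, zero_mul]
    have e₀ := hoff r hr
    have e₁ := hoff _ (hr.add h₁ o₁)
    have e₂ := hoff _ (hr.add h₂ o₂)
    rw [show 1 - r = r₁ + r₂ + r₃ by rw [hr₃]; abel] at e₀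
    rw [show 1 - (r + r₁) = r₂ + r₃ by rw [hr₃]; abel] at e₁
    rw [show 1 - (r + r₂) = r₁ + r₃ by rw [hr₃]; abel] at e₂
    simp only [μaddl, μaddr] at e₀ e₁ e₂
    have hsq : (τ.n2 y / 8) ^ 2 ≤ τ.n2 (commL y r) ^ 2 :=
      pow_le_pow_left₀ (by linarith [τ.n2_nonneg y]) hry 2
    by_cases h : τ.n2 y ^ 2 / 128 ≤ τ.n2 (commL y (r + r₁)) ^ 2
    · exact ⟨_, add_mem hrQ h₁Q, hr.add h₁ o₁, by rw [tr_add, Complex.add_re]; linarith, h⟩
    · refine ⟨_, add_mem hrQ h₂Q, hr.add h₂ o₂, by rw [tr_add, Complex.add_re]; linarith, ?_⟩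
      linarith [μpos _ _ hr h₃, μpos _ _ h₃ hr, μpos _ _ h₁ h₂, μpos _ _ h₂ h₁, μpos _ _ h₁ h₃,
        μpos _ _ h₃ h₁, μpos _ _ h₂ h₃, μpos _ _ h₃ h₂]
  obtain ⟨v, hvQ, hv1, hv2⟩ := exists_equiv hF hC hQ hirrQ heQ (sub_mem (one_mem Q) heQ) he
    he.one_sub (by rw [tr_sub, tr_one, Complex.sub_re, Complex.one_re]; linarith)
  have hve : v * e = v := by
    have : star (v * (1 - e)) * (v * (1 - e)) = 0 := by
      rw [star_mul, mul_assoc, ← mul_assoc (star v), hv1, he.mul_one_sub_self, mul_zero]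
    have := CStarRing.star_mul_self_eq_zero_iff _ |>.1 this
    rwa [mul_sub, mul_one, sub_eq_zero, eq_comm] at this
  have hev : e * v = 0 := by
    have : e * v * star (e * v) = 0 := by
      rw [star_mul, mul_assoc, ← mul_assoc v, hv2, ← mul_assoc, he.mul_one_sub_self, zero_mul]
    exact CStarRing.mul_star_self_eq_zero_iff _ |>.1 this
  have hve' : e * star v = star v := by
    simpa [he.isSelfAdjoint.star_eq] using congrArg star hve
  have hev' : star v * e = 0 := by simpa [he.isSelfAdjoint.star_eq] using congrArg star hev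
  have hvv : v * v = 0 := by rw [← hve, mul_assoc, ← mul_assoc e, hev, zero_mul, mul_zero]
  have hvv' : star v * star v = 0 := by simpa using congrArg star hvv
  have ht := sym_unitary he
  have hts : star ((2 : ℂ) • e - 1) = (2 : ℂ) • e - 1 := by simp [he.isSelfAdjoint.star_eq]
  have htt : ((2 : ℂ) • e - 1) * ((2 : ℂ) • e - 1) = 1 := by
    simpa only [hts] using (Unitary.mem_iff.1 ht).1
  refine ⟨v + star v, add_mem hvQ (star_mem hvQ), (2 : ℂ) • e - 1,
    sub_mem (SMulMemClass.smul_mem _ heQ) (one_mem Q), by simp [add_comm], hts, ?_, htt, ?_, ?_⟩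
  · simp only [add_mul, mul_add, hvv, hvv', hv1, hv2]; abel
  · simp only [add_mul, mul_add, mul_sub, sub_mul, mul_smul_comm, smul_mul_assoc, hve, hev, hve',
      hev', mul_one, one_mul]
    module
  · have h1 : τ.n2 (commL y ((2 : ℂ) • e - 1)) = 2 * τ.n2 (commL y e) := by
      rw [map_sub, hone, sub_zero, map_smul, n2_smul, Complex.norm_two]
    generalize (2 : ℂ) • e - 1 = t at *
    have h2 := τ.n2_parallelogram y (t * y * t)
    rw [← τ.n2_mul_unitary _ ht, commL_apply, sub_mul, mul_assoc y, htt, mul_one, n2_sub_rev] at h1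
    rw [n2_mul_unitary _ _ ht, n2_unitary_mul _ ht, h1] at h2
    rw [n2_smul, norm_inv, Complex.norm_two, mul_pow]
    nlinarith [sq_nonneg (τ.n2 y)]

end TrState

end Crest.Agent.Lib.Tracial
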