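import Crest.Agent.Lib.Tracial.Basic

/-! Interface propositions for the row 95 development. -/

set_option autoImplicit false

noncomputable section

namespace Crest.Agent.Lib.Tracial

namespace TrState

variable {A : Type*} [CStarAlgebra A] (τ : TrState A)

/-- `Q` has scalar relative commutant in `M`. -/
def Irr (Q M : StarSubalgebra ℂ A) : Prop :=
  ∀ z ∈ M, (∀ q ∈ Q, z * q = q * z) → ∃ c : ℂ, z = c • (1 : A)

/-- The cutting property: in every irreducible infinite-dimensional pair, a trace-zero element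
loses a fixed proportion of its 2-norm under the twirl by one member of a Pauli pair. -/
def CutProp : Prop :=
  ∀ (Q M : StarSubalgebra ℂ A), Q ≤ M → τ.WClosed Q → τ.WClosed M → Irr Q M →
    ¬ FiniteDimensional ℂ Q → ∀ y ∈ M, τ y = 0 →
    ∃ s ∈ Q, ∃ t ∈ Q, star s = s ∧ star t = t ∧ s * s = 1 ∧ t * t = 1 ∧ s * t = -(t * s) ∧
      τ.n2 ((2 : ℂ)⁻¹ • (y + t * y * t)) ^ 2 ≤ (1 - 1 / 200) * τ.n2 y ^ 2

/-- Approximate freeness on cosets of the unitary group of `Q`. -/
def ApproxFree (Q : StarSubalgebra ℂ A) : Prop :=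
  ∀ (y : A), y ∈ unitary A → ∀ (X : Finset A) (K : ℕ) (δ : ℝ), 0 < δ →
    ∃ a ∈ Q, a ∈ unitary A ∧ ∀ W : List (Bool × A), W ≠ [] → W.length ≤ K →
      (∀ p ∈ W, p.2 ∈ X) → RedW τ W → ‖τ (evw (y * a) W)‖ ≤ δ

/-- Approximate relative generation: near every unitary `u₀` there is a unitary `u` such that the
star algebra generated by `Q` and `u` almost contains a given unitary `x`. -/
def ApproxGen (Q : StarSubalgebra ℂ A) : Prop :=
  ∀ u₀ ∈ unitary A, ∀ x ∈ unitary A, ∀ η : ℝ, 0 < η →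
    ∃ u ∈ unitary A, τ.n2 (u - u₀) < η ∧
      ∃ g ∈ StarAlgebra.adjoin ℂ (insert u (Q : Set A)), τ.n2 (x - g) < η

end TrState

end Crest.Agent.Lib.Tracial
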