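import Crest.Agent.Lib.Tracial.Iface

/-! Asymptotic freeness from the averaging property (an incremental patching argument). -/

set_option autoImplicit false

open scoped ComplexConjugate

noncomputable section

namespace Crest.Agent.Lib.Tracial

namespace Popa

variable {A : Type*} [CStarAlgebra A]

/-- The letter `w` or `star w`. -/
def lt (w : A) (e : Bool) : A := if e then w else star w
/-- Left factor of the derivative of a letter. -/
def uu (w : A) (e : Bool) : A := if e then Complex.I • w else (-Complex.I) • (1 : A)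
/-- Right factor of the derivative of a letter. -/
def vv (w : A) (e : Bool) : A := if e then 1 else star w

lemma evw_nil (w : A) : evw w ([] : List (Bool × A)) = 1 := rfl
lemma evw_cons (w : A) (p : Bool × A) (W : List (Bool × A)) :
    evw w (p :: W) = lt w p.1 * p.2 * evw w W := rfl

lemma evw_append (w : A) (P W : List (Bool × A)) : evw w (P ++ W) = evw w P * evw w W := by
  induction P with
  | nil => simp [evw_nil]
  | cons p P ih => rw [List.cons_append, evw_cons, evw_cons, ih]; simp only [mul_assoc]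

/-- First-order term. -/
def P1 (w h : A) : List (Bool × A) → A
  | [] => 0
  | p :: W => uu w p.1 * h * vv w p.1 * p.2 * evw w W + lt w p.1 * p.2 * P1 w h W

/-- Second-order term. -/
def P2 (w h : A) : List (Bool × A) → A
  | [] => 0
  | p :: W => uu w p.1 * h * vv w p.1 * p.2 * P1 w h W + lt w p.1 * p.2 * P2 w h W

/-- The (unnormalised) perturbation of `w`. -/
def pert (w h : A) (r : ℝ) : A := w * (1 + ((r : ℂ) * Complex.I) • h)

lemma lt_pert (w : A) {h : A} (hh : star h = h) (r : ℝ) (e : Bool) :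
    lt (pert w h r) e = lt w e + (r : ℂ) • (uu w e * h * vv w e) := by
  cases e
  · simp [lt, pert, uu, vv, star_smul, hh, add_mul, smul_smul]
  · simp [lt, pert, uu, vv, mul_add, smul_smul]

lemma evw_smul (c : ℝ) (w : A) (W : List (Bool × A)) :
    evw ((c : ℂ) • w) W = (c : ℂ) ^ W.length • evw w W := by
  induction W with
  | nil => simp [evw_nil]
  | cons p W ih =>
    have : lt ((c : ℂ) • w) p.1 = (c : ℂ) • lt w p.1 := by
      unfold lt; split_ifs <;> simp [star_smul]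
    rw [evw_cons, evw_cons, ih, this, List.length_cons, pow_succ]
    simp only [smul_mul_assoc, mul_smul_comm, smul_smul]

lemma norm_mul_le_of_le {a b : A} {x y : ℝ} (ha : ‖a‖ ≤ x) (hb : ‖b‖ ≤ y) : ‖a * b‖ ≤ x * y :=
  (norm_mul_le a b).trans (mul_le_mul ha hb (norm_nonneg _) ((norm_nonneg _).trans ha))

lemma norm_mul_le_one {a b : A} (ha : ‖a‖ ≤ 1) (hb : ‖b‖ ≤ 1) : ‖a * b‖ ≤ 1 := by
  simpa using norm_mul_le_of_le ha hb

lemma norm_mul_le_left {a b : A} {y : ℝ} (ha : ‖a‖ ≤ 1) (hb : ‖b‖ ≤ y) : ‖a * b‖ ≤ y := by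
  simpa using norm_mul_le_of_le ha hb

section norms

variable [Nontrivial A] {w : A}

omit [Nontrivial A] in
lemma norm_lt (hw : ‖w‖ ≤ 1) (e : Bool) : ‖lt w e‖ ≤ 1 := by
  unfold lt; split_ifs
  · exact hw
  · rwa [norm_star]

lemma norm_uu (hw : ‖w‖ ≤ 1) (e : Bool) : ‖uu w e‖ ≤ 1 := by
  unfold uu; split_ifs
  · simpa [norm_smul] using hw
  · simp [norm_smul]

lemma norm_vv (hw : ‖w‖ ≤ 1) (e : Bool) : ‖vv w e‖ ≤ 1 := by
  unfold vv; split_ifs
  · simp
  · rwa [norm_star]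

lemma norm_evw (hw : ‖w‖ ≤ 1) {W : List (Bool × A)} (hW : ∀ p ∈ W, ‖p.2‖ ≤ 1) :
    ‖evw w W‖ ≤ 1 := by
  induction W with
  | nil => simp [evw_nil]
  | cons p W ih =>
    rw [evw_cons]
    exact norm_mul_le_one (norm_mul_le_one (norm_lt hw _) (hW p (by simp)))
      (ih fun q hq => hW q (by simp [hq]))

/-- The remainders of the expansion to order `0, 1, 2`. -/
lemma remainders (hw : ‖w‖ ≤ 1) {h : A} (hh : star h = h) (hn : ‖h‖ ≤ 1) {r : ℝ} (hr : 0 ≤ r)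
    (hr1 : r ≤ 1) {W : List (Bool × A)} (hW : ∀ p ∈ W, ‖p.2‖ ≤ 1) :
    ‖evw (pert w h r) W‖ ≤ 2 ^ W.length ∧
    ‖evw (pert w h r) W - evw w W‖ ≤ r * 2 ^ W.length ∧
    ‖evw (pert w h r) W - evw w W - (r : ℂ) • P1 w h W‖ ≤ r ^ 2 * 2 ^ W.length ∧
    ‖evw (pert w h r) W - evw w W - (r : ℂ) • P1 w h W - (r : ℂ) ^ 2 • P2 w h W‖
      ≤ r ^ 3 * 2 ^ W.length := by
  induction W with
  | nil =>
    simp only [evw_nil, P1, P2, List.length_nil, pow_zero, mul_one, sub_self, smul_zero, norm_zero,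
      norm_one, le_refl, true_and]
    exact ⟨hr, by positivity, by positivity⟩
  | cons p W ih =>
    obtain ⟨h0, h1, h2, h3⟩ := ih fun q hq => hW q (by simp [hq])
    have hz : ‖p.2‖ ≤ 1 := hW p (by simp)
    have hl : ‖lt w p.1 * p.2‖ ≤ 1 := norm_mul_le_one (norm_lt hw _) hz
    have hd : ‖uu w p.1 * h * vv w p.1 * p.2‖ ≤ 1 :=
      norm_mul_le_one (norm_mul_le_one (norm_mul_le_one (norm_uu hw _) hn) (norm_vv hw _)) hz
    set L := lt w p.1 * p.2 with hL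
    set D := uu w p.1 * h * vv w p.1 * p.2 with hD
    have key : ∀ (x y : A) (a b : ℝ), ‖x‖ ≤ a → ‖y‖ ≤ b → ‖L * x + (r : ℂ) • (D * y)‖ ≤ a + r * b := by
      intro x y a b hx hy
      refine (norm_add_le _ _).trans (add_le_add (norm_mul_le_left hl hx) ?_)
      rw [norm_smul, Complex.norm_real, Real.norm_of_nonneg hr]
      exact mul_le_mul_of_nonneg_left (norm_mul_le_left hd hy) hr
    have hT : evw (pert w h r) (p :: W) =
        L * evw (pert w h r) W + (r : ℂ) • (D * evw (pert w h r) W) := by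
      rw [evw_cons, lt_pert w hh, add_mul, add_mul, smul_mul_assoc, smul_mul_assoc]
    have hp : (0 : ℝ) < 2 ^ W.length := by positivity
    rw [hT, evw_cons, P1, P2, ← hL, ← hD, List.length_cons, pow_succ]
    set T := evw (pert w h r) W
    set E := evw w W
    set E1 := P1 w h W
    set E2 := P2 w h W
    refine ⟨(key _ _ _ _ h0 h0).trans (by nlinarith), ?_, ?_, ?_⟩
    · have : L * T + (r : ℂ) • (D * T) - L * E = L * (T - E) + (r : ℂ) • (D * T) := by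
        simp only [mul_sub]; abel
      rw [this]
      exact (key _ _ _ _ h1 h0).trans (le_of_eq (by ring))
    · have : L * T + (r : ℂ) • (D * T) - L * E - (r : ℂ) • (D * E + L * E1) =
          L * (T - E - (r : ℂ) • E1) + (r : ℂ) • (D * (T - E)) := by
        simp only [mul_sub, mul_smul_comm, smul_add, smul_sub]; abel
      rw [this]
      exact (key _ _ _ _ h2 h1).trans (le_of_eq (by ring))
    · have : L * T + (r : ℂ) • (D * T) - L * E - (r : ℂ) • (D * E + L * E1) -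
          (r : ℂ) ^ 2 • (D * E1 + L * E2) =
          L * (T - E - (r : ℂ) • E1 - (r : ℂ) ^ 2 • E2) +
            (r : ℂ) • (D * (T - E - (r : ℂ) • E1)) := by
        simp only [mul_sub, mul_smul_comm, smul_add, smul_sub, smul_smul, sq]; abel
      rw [this]
      exact (key _ _ _ _ h3 h2).trans (le_of_eq (by ring))

end norms

variable (τ : TrState A)

/-- The first-order term is linear in `h`. -/
lemma exists_P1 (w : A) (W : List (Bool × A)) :
    ∀ a : A, ∃ Y : A, ∀ h : A, τ (a * P1 w h W) = τ (h * Y) := by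
  induction W with
  | nil => intro a; exact ⟨0, fun h => by simp [P1]⟩
  | cons p W ih =>
    intro a
    obtain ⟨Y, hY⟩ := ih (a * (lt w p.1 * p.2))
    refine ⟨vv w p.1 * p.2 * evw w W * (a * uu w p.1) + Y, fun h => ?_⟩
    rw [P1, mul_add, τ.tr_add, mul_add, τ.tr_add, ← hY, ← mul_assoc h, τ.tr_comm _ (a * uu w p.1)]
    simp only [mul_assoc]

/-- The averaging conditions for one test element, cleared of denominators. -/
def Cond (η : ℝ) {N : ℕ} (h : Fin N → A) (y : A) : Prop :=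
  τ.n2 (∑ i, h i * y * h i - ((N : ℂ) * τ y) • (1 : A)) ≤ N * η ∧ ∑ i, ‖τ (h i * y)‖ ^ 2 ≤ N * η

/-- `P` holds for all families that satisfy the averaging conditions on a suitable finite set. -/
def Ev (η : ℝ) (P : (N : ℕ) → (Fin N → A) → Prop) : Prop :=
  ∃ Y : Finset A, ∀ (N : ℕ) (h : Fin N → A), (∀ y ∈ Y, Cond τ η h y) → P N h

variable {τ}

lemma Ev.of_forall {η : ℝ} {P : (N : ℕ) → (Fin N → A) → Prop} (hP : ∀ N h, P N h) : Ev τ η P :=
  ⟨∅, fun N h _ => hP N h⟩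

lemma Ev.mono {η : ℝ} {P P' : (N : ℕ) → (Fin N → A) → Prop} (hP : Ev τ η P)
    (hPP : ∀ N h, P N h → P' N h) : Ev τ η P' := by
  obtain ⟨Y, hY⟩ := hP
  exact ⟨Y, fun N h hh => hPP N h (hY N h hh)⟩

lemma Ev.and {η : ℝ} {P P' : (N : ℕ) → (Fin N → A) → Prop} (hP : Ev τ η P) (hP' : Ev τ η P') :
    Ev τ η (fun N h => P N h ∧ P' N h) := by
  classical
  obtain ⟨Y, hY⟩ := hP
  obtain ⟨Y', hY'⟩ := hP'
  exact ⟨Y ∪ Y', fun N h hh => ⟨hY N h fun y hy => hh y (Finset.mem_union_left _ hy),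
    hY' N h fun y hy => hh y (Finset.mem_union_right _ hy)⟩⟩

lemma Ev.cond (η : ℝ) (y : A) : Ev τ η (fun _ h => Cond τ η h y) :=
  ⟨{y}, fun _ _ hh => hh y (Finset.mem_singleton_self y)⟩

lemma Ev.forall_finset {ι : Type*} {η : ℝ} (S : Finset ι)
    {P : ι → (N : ℕ) → (Fin N → A) → Prop} (hP : ∀ x ∈ S, Ev τ η (P x)) :
    Ev τ η (fun N h => ∀ x ∈ S, P x N h) := by
  classical
  induction S using Finset.induction_on with
  | empty => exact Ev.of_forall fun N h x hx => absurd hx (Finset.notMem_empty x)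
  | insert a S ha ih =>
    refine ((hP a (Finset.mem_insert_self a S)).and
      (ih fun x hx => hP x (Finset.mem_insert_of_mem hx))).mono ?_
    rintro N h ⟨h1, h2⟩ x hx
    rcases Finset.mem_insert.mp hx with rfl | hx
    · exact h1
    · exact h2 x hx

lemma Ev.exists {Q : Set A} (hAV : τ.AV Q) {η : ℝ} (hη : 0 < η)
    {P : (N : ℕ) → (Fin N → A) → Prop} (hP : Ev τ η P) :
    ∃ (N : ℕ) (h : Fin N → A), 0 < N ∧ (∀ i, h i ∈ Q ∧ star (h i) = h i ∧ h i * h i = 1) ∧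
      P N h := by
  obtain ⟨Y, hY⟩ := hP
  obtain ⟨N, h, hN, hh, hc⟩ := hAV Y η hη
  refine ⟨N, h, hN, hh, hY N h fun y hy => ?_⟩
  obtain ⟨h1, h2⟩ := hc y hy
  have hN' : (0 : ℝ) < N := Nat.cast_pos.mpr hN
  have hNc : (N : ℂ) ≠ 0 := Nat.cast_ne_zero.mpr hN.ne'
  constructor
  · have : ∑ i, h i * y * h i - ((N : ℂ) * τ y) • (1 : A) =
        (N : ℂ) • ((N : ℂ)⁻¹ • ∑ i, h i * y * h i - τ y • (1 : A)) := by
      rw [smul_sub, smul_smul, smul_smul, mul_inv_cancel₀ hNc, one_smul]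
    rw [this, τ.n2_smul, Complex.norm_natCast]
    exact mul_le_mul_of_nonneg_left h1 hN'.le
  · rwa [inv_mul_le_iff₀ hN'] at h2

lemma Cond.twirl {η : ℝ} {N : ℕ} {h : Fin N → A} {y : A} (hc : Cond τ η h y) {a b : A}
    (ha : ‖a‖ ≤ 1) (hb : ‖b‖ ≤ 1) {F : ℝ} (hF : ‖τ y‖ ≤ F) :
    ‖∑ i, τ (a * h i * y * h i * b)‖ ≤ N * (F + η) := by
  have hba : ‖b * a‖ ≤ 1 := norm_mul_le_one hb ha
  have e1 : ∑ i, τ (a * h i * y * h i * b) =
      τ (b * a * (∑ i, h i * y * h i - ((N : ℂ) * τ y) • (1 : A))) + (N : ℂ) * τ y * τ (b * a) := by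
    rw [mul_sub, τ.tr_sub, mul_smul_comm, mul_one, τ.tr_smul, sub_add_cancel, Finset.mul_sum,
      τ.tr_sum]
    refine Finset.sum_congr rfl fun i _ => ?_
    rw [τ.tr_comm]
    simp only [mul_assoc]
  rw [e1]
  refine (norm_add_le _ _).trans ?_
  have h1 : ‖τ (b * a * (∑ i, h i * y * h i - ((N : ℂ) * τ y) • (1 : A)))‖ ≤ N * η :=
    (τ.norm_tr_le_n2 _).trans ((τ.n2_mul_le_of_norm_le_one_left hba _).trans hc.1)
  have h2 : ‖(N : ℂ) * τ y * τ (b * a)‖ ≤ N * F := by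
    rw [norm_mul, norm_mul, Complex.norm_natCast]
    have := (τ.norm_tr_le (b * a)).trans hba
    have h3 : (N : ℝ) * ‖τ y‖ ≤ N * F := mul_le_mul_of_nonneg_left hF (Nat.cast_nonneg N)
    exact (mul_le_of_le_one_right (by positivity) this).trans h3
  linarith

variable (τ) in
/-- All segments between two perturbed letters have small trace. -/
def Good (w : A) (F : ℝ) : A → List (Bool × A) → Prop
  | _, [] => True
  | Y, p :: W => ‖τ (Y * uu w p.1)‖ ≤ F ∧ Good w F (Y * (lt w p.1 * p.2)) W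

lemma ev_P1 [Nontrivial A] {w : A} (hw : ‖w‖ ≤ 1) {F η : ℝ} {a : A} (ha : ‖a‖ ≤ 1)
    {W : List (Bool × A)} (hW : ∀ p ∈ W, ‖p.2‖ ≤ 1) :
    ∀ Y : A, Good τ w F Y W →
      Ev τ η (fun N h => ‖∑ i, τ (a * h i * Y * P1 w (h i) W)‖ ≤ W.length * (N * (F + η))) := by
  induction W with
  | nil => intro Y _; exact Ev.of_forall fun N h => by simp [P1]
  | cons p W ih =>
    rintro Y ⟨hY, hG⟩
    have hW' : ∀ q ∈ W, ‖q.2‖ ≤ 1 := fun q hq => hW q (by simp [hq])
    refine ((ih hW' _ hG).and (Ev.cond η (Y * uu w p.1))).mono ?_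
    rintro N h ⟨h1, h2⟩
    have hb : ‖vv w p.1 * p.2 * evw w W‖ ≤ 1 :=
      norm_mul_le_one (norm_mul_le_one (norm_vv hw _) (hW p (by simp))) (norm_evw hw hW')
    have h3 := h2.twirl ha hb hY
    have e : ∑ i, τ (a * h i * Y * P1 w (h i) (p :: W)) =
        ∑ i, τ (a * h i * (Y * uu w p.1) * h i * (vv w p.1 * p.2 * evw w W)) +
          ∑ i, τ (a * h i * (Y * (lt w p.1 * p.2)) * P1 w (h i) W) := by
      rw [← Finset.sum_add_distrib]
      refine Finset.sum_congr rfl fun i _ => ?_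
      rw [P1, mul_add, τ.tr_add]
      simp only [mul_assoc]
    rw [e, List.length_cons, Nat.cast_succ]
    refine (norm_add_le _ _).trans ?_
    linarith

variable (τ) in
/-- Monitored pairs. -/
def Mon (X : Finset A) (W : List (Bool × A)) (t : A) : Prop :=
  W ≠ [] ∧ (∀ p ∈ W, p.2 ∈ X) ∧ RedW τ W ∧ (t = 1 ∨ t ∈ X)

lemma good_of_mon {w : A} (hw : w ∈ unitary A) {X : Finset A} {F : ℝ} (hF0 : 0 ≤ F) {k : ℕ}
    (hF : ∀ W t, Mon τ X W t → W.length < k → ‖τ (t * evw w W)‖ ≤ F) (p : Bool × A)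
    (W : List (Bool × A)) :
    ∀ P : List (Bool × A), (∀ q ∈ p :: (P ++ W), q.2 ∈ X) → RedW τ (p :: (P ++ W)) →
      (p :: (P ++ W)).length ≤ k → Good τ w F (vv w p.1 * p.2 * evw w P) W := by
  induction W with
  | nil => intro P _ _ _; trivial
  | cons p' W ih =>
    intro P hX hR hk
    have hlen : (p :: P).length < k := by
      simp only [List.length_cons, List.length_append] at hk ⊢; omega
    have hRp : RedW τ (p :: P) := by
      have : p :: (P ++ p' :: W) = (p :: P) ++ p' :: W := rfl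
      rw [RedW, this] at hR
      exact hR.left_of_append
    have hXp : ∀ q ∈ p :: P, q.2 ∈ X := fun q hq => hX q (by
      simp only [List.mem_cons, List.mem_append] at hq ⊢; tauto)
    have hsame : ‖τ (lt w p.1 * p.2 * evw w P)‖ ≤ F := by
      have := hF (p :: P) 1 ⟨by simp, hXp, hRp, Or.inl rfl⟩ hlen
      rwa [one_mul, evw_cons] at this
    have hdiff : p.1 ≠ p'.1 → ‖τ (p.2 * evw w P)‖ ≤ F := by
      intro hne
      rcases P with _ | ⟨p'', P⟩
      · have : τ p.2 = 0 := (List.isChain_cons_cons.mp hR).1 hne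
        rw [evw_nil, mul_one, this, norm_zero]; exact hF0
      · refine hF _ _ ⟨by simp, fun q hq => hXp q (List.mem_cons_of_mem _ hq),
          (List.isChain_cons_cons.mp hRp).2, Or.inr (hXp p (by simp))⟩ ?_
        simp only [List.length_cons] at hlen ⊢; omega
    refine ⟨?_, ?_⟩
    · rw [τ.tr_comm]
      obtain ⟨e, z⟩ := p
      obtain ⟨e', z'⟩ := p'
      have h2 := (Unitary.mem_iff.mp hw).2
      cases e <;> cases e'
      · simpa [uu, vv, lt, τ.tr_smul, τ.tr_neg, mul_assoc] using hsame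
      · have := hdiff (by simp)
        simpa [uu, vv, τ.tr_smul, ← mul_assoc, h2] using this
      · have := hdiff (by simp)
        simpa [uu, vv, τ.tr_smul, τ.tr_neg] using this
      · simpa [uu, vv, lt, τ.tr_smul, mul_assoc] using hsame
    · have := ih (P ++ [p']) (by simpa using hX) (by simpa using hR) (by simpa using hk)
      rwa [evw_append, evw_cons, evw_nil, mul_one, ← mul_assoc] at this

lemma ev_P2 [Nontrivial A] {w : A} (hw : w ∈ unitary A) {X : Finset A} (hX : ∀ z ∈ X, ‖z‖ ≤ 1)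
    {F η : ℝ} (hF0 : 0 ≤ F) (hη : 0 ≤ η) {k : ℕ}
    (hF : ∀ W t, Mon τ X W t → W.length < k → ‖τ (t * evw w W)‖ ≤ F) (W : List (Bool × A)) :
    (∀ q ∈ W, q.2 ∈ X) → RedW τ W → W.length ≤ k → ∀ a : A, ‖a‖ ≤ 1 →
      Ev τ η (fun N h => ‖∑ i, τ (a * P2 w (h i) W)‖ ≤ (W.length : ℝ) ^ 2 * (N * (F + η))) := by
  have hw1 : ‖w‖ ≤ 1 := (τ.norm_unitary hw).le
  induction W with
  | nil => intro _ _ _ a _; exact Ev.of_forall fun N h => by simp [P2]
  | cons p W ih =>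
    intro hWX hR hk a ha
    have hWX' : ∀ q ∈ W, q.2 ∈ X := fun q hq => hWX q (by simp [hq])
    have hG := good_of_mon hw hF0 hF p W [] hWX hR hk
    rw [evw_nil, mul_one] at hG
    have hz : ‖p.2‖ ≤ 1 := hX _ (hWX p (by simp))
    have h1 := ev_P1 (τ := τ) (η := η) hw1 (norm_mul_le_one ha (norm_uu hw1 p.1))
      (fun q hq => hX _ (hWX' q hq)) _ hG
    have h2 := ih hWX' (List.IsChain.tail hR) (by simp only [List.length_cons] at hk; omega)
      (a * (lt w p.1 * p.2)) (norm_mul_le_one ha (norm_mul_le_one (norm_lt hw1 _) hz))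
    refine (h1.and h2).mono ?_
    rintro N h ⟨h1, h2⟩
    have e : ∑ i, τ (a * P2 w (h i) (p :: W)) =
        ∑ i, τ (a * uu w p.1 * h i * (vv w p.1 * p.2) * P1 w (h i) W) +
          ∑ i, τ (a * (lt w p.1 * p.2) * P2 w (h i) W) := by
      rw [← Finset.sum_add_distrib]
      refine Finset.sum_congr rfl fun i _ => ?_
      rw [P2, mul_add, τ.tr_add]
      simp only [mul_assoc]
    rw [e, List.length_cons, Nat.cast_succ]
    refine (norm_add_le _ _).trans ?_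
    have : (0 : ℝ) ≤ N * (F + η) := by positivity
    have : (0 : ℝ) ≤ W.length := by positivity
    nlinarith

lemma norm_add_sq_le (q D : ℂ) : ‖q + D‖ ^ 2 = ‖q‖ ^ 2 + 2 * (conj q * D).re + ‖D‖ ^ 2 := by
  simp only [← Complex.normSq_eq_norm_sq, Complex.normSq_apply, Complex.add_re, Complex.add_im,
    Complex.mul_re, Complex.conj_re, Complex.conj_im]
  ring

/-- The constant in the cubic error term. -/
def cst (K : ℕ) : ℝ := 2 * (1 + (K : ℝ) ^ 2 + 2 ^ K) + 2 + 2 * (2 ^ K) ^ 2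

lemma cst_pos (K : ℕ) : 0 < cst K := by unfold cst; positivity

/-- The estimate for one monitored pair. -/
lemma ev_pair [Nontrivial A] {w : A} (hw : w ∈ unitary A) {X : Finset A} (hX : ∀ z ∈ X, ‖z‖ ≤ 1)
    {F r : ℝ} (hF0 : 0 ≤ F) (hr : 0 < r) (hr1 : r ≤ 1) {K : ℕ} {W : List (Bool × A)} {t : A}
    (hM : Mon τ X W t) (hK : W.length ≤ K)
    (hF : ∀ W' t', Mon τ X W' t' → W'.length < W.length → ‖τ (t' * evw w W')‖ ≤ F) :
    Ev τ (r ^ 4) (fun N h => (∀ i, star (h i) = h i ∧ ‖h i‖ ≤ 1) →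
      ∑ i, ‖τ (t * evw (pert w (h i) r) W)‖ ^ 2 ≤
        N * (‖τ (t * evw w W)‖ ^ 2 + 2 * ‖τ (t * evw w W)‖ * (r ^ 2 * K ^ 2 * F) +
          cst K * r ^ 3)) := by
  have hw1 : ‖w‖ ≤ 1 := (τ.norm_unitary hw).le
  obtain ⟨-, hWX, hR, ht⟩ := hM
  have ht1 : ‖t‖ ≤ 1 := by
    rcases ht with rfl | ht
    · simp
    · exact hX t ht
  have hW : ∀ p ∈ W, ‖p.2‖ ≤ 1 := fun p hp => hX _ (hWX p hp)
  obtain ⟨Y, hY⟩ := exists_P1 τ w W t
  refine ((ev_P2 hw hX hF0 (by positivity : (0 : ℝ) ≤ r ^ 4) hF W hWX hR le_rfl t ht1).and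
    (Ev.cond (r ^ 4) Y)).mono ?_
  rintro N h ⟨h2, -, h1⟩ hh
  simp only [← hY] at h1
  set q := τ (t * evw w W) with hq
  have hq1 : ‖q‖ ≤ 1 := (τ.norm_tr_le _).trans (norm_mul_le_one ht1 (norm_evw hw1 hW))
  set D : Fin N → ℂ := fun i => τ (t * (evw (pert w (h i) r) W - evw w W)) with hD
  set a1 : Fin N → ℂ := fun i => τ (t * P1 w (h i) W) with ha1
  set a2 : Fin N → ℂ := fun i => τ (t * P2 w (h i) W) with ha2
  have h2K : (2 : ℝ) ^ W.length ≤ 2 ^ K := pow_le_pow_right₀ (by norm_num) hK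
  have hKK : (W.length : ℝ) ^ 2 ≤ (K : ℝ) ^ 2 :=
    pow_le_pow_left₀ (Nat.cast_nonneg _) (Nat.cast_le.mpr hK) 2
  have hrem1 : ∀ i, ‖D i - r * a1 i‖ ≤ r ^ 2 * 2 ^ K := by
    intro i
    obtain ⟨-, -, h3, -⟩ := remainders hw1 (hh i).1 (hh i).2 hr.le hr1 hW
    have : D i - r * a1 i = τ (t * (evw (pert w (h i) r) W - evw w W - (r : ℂ) • P1 w (h i) W)) := by
      rw [mul_sub t _ (_ • _), τ.tr_sub, mul_smul_comm, τ.tr_smul]
    rw [this]
    exact ((τ.norm_tr_le _).trans (norm_mul_le_left ht1 h3)).trans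
      (mul_le_mul_of_nonneg_left h2K (by positivity))
  have hrem2 : ∀ i, ‖D i - r * a1 i - r ^ 2 * a2 i‖ ≤ r ^ 3 * 2 ^ K := by
    intro i
    obtain ⟨-, -, -, h3⟩ := remainders hw1 (hh i).1 (hh i).2 hr.le hr1 hW
    have : D i - r * a1 i - r ^ 2 * a2 i = τ (t * (evw (pert w (h i) r) W - evw w W -
        (r : ℂ) • P1 w (h i) W - (r : ℂ) ^ 2 • P2 w (h i) W)) := by
      rw [mul_sub t _ (_ • _), τ.tr_sub, mul_sub t _ (_ • _), τ.tr_sub, mul_smul_comm,
        mul_smul_comm, τ.tr_smul, τ.tr_smul]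
    rw [this]
    exact ((τ.norm_tr_le _).trans (norm_mul_le_left ht1 h3)).trans
      (mul_le_mul_of_nonneg_left h2K (by positivity))
  have hN : (0 : ℝ) ≤ N := Nat.cast_nonneg N
  -- first-order term
  have hA1 : ∑ i, ‖a1 i‖ ≤ N * r ^ 2 := by
    have h3 : ∀ i, 2 * r ^ 2 * ‖a1 i‖ ≤ ‖a1 i‖ ^ 2 + r ^ 4 := fun i => by
      nlinarith [sq_nonneg (‖a1 i‖ - r ^ 2)]
    have h4 := Finset.sum_le_sum fun i (_ : i ∈ Finset.univ) => h3 i
    rw [← Finset.mul_sum, Finset.sum_add_distrib, Finset.sum_const, Finset.card_univ,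
      Fintype.card_fin, nsmul_eq_mul] at h4
    have h5 : 2 * r ^ 2 * ∑ i, ‖a1 i‖ ≤ 2 * r ^ 2 * (N * r ^ 2) := by nlinarith
    exact le_of_mul_le_mul_left h5 (by positivity)
  have hsumD : ‖∑ i, D i‖ ≤ N * (r ^ 2 * K ^ 2 * F + (1 + (K : ℝ) ^ 2 + 2 ^ K) * r ^ 3) := by
    have e : ∑ i, D i = r * ∑ i, a1 i + r ^ 2 * ∑ i, a2 i +
        ∑ i, (D i - r * a1 i - r ^ 2 * a2 i) := by
      simp only [Finset.sum_sub_distrib, Finset.mul_sum]; ring
    have b1 : ‖(r : ℂ) * ∑ i, a1 i‖ ≤ r * (N * r ^ 2) := by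
      rw [norm_mul, Complex.norm_real, Real.norm_of_nonneg hr.le]
      exact mul_le_mul_of_nonneg_left ((norm_sum_le _ _).trans hA1) hr.le
    have b2 : ‖(r : ℂ) ^ 2 * ∑ i, a2 i‖ ≤ r ^ 2 * ((K : ℝ) ^ 2 * (N * (F + r ^ 4))) := by
      rw [norm_mul, norm_pow, Complex.norm_real, Real.norm_of_nonneg hr.le]
      exact mul_le_mul_of_nonneg_left
        (h2.trans (mul_le_mul_of_nonneg_right hKK (by positivity))) (by positivity)
    have b3 : ‖∑ i, (D i - r * a1 i - r ^ 2 * a2 i)‖ ≤ N * (r ^ 3 * 2 ^ K) := by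
      refine (norm_sum_le _ _).trans ((Finset.sum_le_sum fun i _ => hrem2 i).trans ?_)
      simp
    have b4 : r ^ 6 ≤ r ^ 3 := pow_le_pow_of_le_one hr.le hr1 (by norm_num)
    have b5 : (N * (K : ℝ) ^ 2) * r ^ 6 ≤ (N * (K : ℝ) ^ 2) * r ^ 3 :=
      mul_le_mul_of_nonneg_left b4 (by positivity)
    rw [e]
    refine (norm_add₃_le).trans ?_
    nlinarith
  have hsumD2 : ∑ i, ‖D i‖ ^ 2 ≤ N * ((2 + 2 * (2 ^ K) ^ 2) * r ^ 3) := by
    have h3 : ∀ i, ‖D i‖ ^ 2 ≤ 2 * r ^ 2 * ‖a1 i‖ ^ 2 + 2 * (r ^ 2 * 2 ^ K) ^ 2 := by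
      intro i
      have h4 : ‖D i‖ ≤ r * ‖a1 i‖ + r ^ 2 * 2 ^ K := by
        have : D i = r * a1 i + (D i - r * a1 i) := by ring
        rw [this]
        refine (norm_add_le _ _).trans (add_le_add ?_ ?_)
        · rw [norm_mul, Complex.norm_real, Real.norm_of_nonneg hr.le]
        · exact hrem1 i
      have h5 := pow_le_pow_left₀ (norm_nonneg _) h4 2
      nlinarith [sq_nonneg (r * ‖a1 i‖ - r ^ 2 * 2 ^ K)]
    have h4 := Finset.sum_le_sum fun i (_ : i ∈ Finset.univ) => h3 i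
    rw [Finset.sum_add_distrib, ← Finset.mul_sum, Finset.sum_const, Finset.card_univ,
      Fintype.card_fin, nsmul_eq_mul] at h4
    have b4 : r ^ 6 ≤ r ^ 3 := pow_le_pow_of_le_one hr.le hr1 (by norm_num)
    have b5 : r ^ 4 ≤ r ^ 3 := pow_le_pow_of_le_one hr.le hr1 (by norm_num)
    have b6 : 2 * r ^ 2 * ∑ i, ‖a1 i‖ ^ 2 ≤ 2 * r ^ 2 * (N * r ^ 4) :=
      mul_le_mul_of_nonneg_left h1 (by positivity)
    have b7 : (N : ℝ) * r ^ 6 ≤ N * r ^ 3 := mul_le_mul_of_nonneg_left b4 hN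
    have b8 : (N * ((2 : ℝ) ^ K) ^ 2) * r ^ 4 ≤ (N * ((2 : ℝ) ^ K) ^ 2) * r ^ 3 :=
      mul_le_mul_of_nonneg_left b5 (by positivity)
    nlinarith
  have e : ∀ i, τ (t * evw (pert w (h i) r) W) = q + D i := by
    intro i
    simp only [hD, hq, mul_sub, τ.tr_sub]; ring
  simp only [e, norm_add_sq_le]
  rw [Finset.sum_add_distrib, Finset.sum_add_distrib, Finset.sum_const, Finset.card_univ,
    Fintype.card_fin, nsmul_eq_mul, ← Finset.mul_sum, ← Complex.re_sum, ← Finset.mul_sum]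
  have c1 : (conj q * ∑ i, D i).re ≤
      ‖q‖ * (N * (r ^ 2 * K ^ 2 * F + (1 + (K : ℝ) ^ 2 + 2 ^ K) * r ^ 3)) := by
    refine (Complex.re_le_norm _).trans ?_
    rw [norm_mul, Complex.norm_conj]
    exact mul_le_mul_of_nonneg_left hsumD (norm_nonneg _)
  have c2 : ‖q‖ * (N * ((1 + (K : ℝ) ^ 2 + 2 ^ K) * r ^ 3)) ≤
      N * ((1 + (K : ℝ) ^ 2 + 2 ^ K) * r ^ 3) :=
    mul_le_of_le_one_left (by positivity) hq1
  unfold cst
  nlinarith

/-- The normalising constant. -/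
def cc (r : ℝ) : ℝ := (Real.sqrt (1 + r ^ 2))⁻¹

lemma cc_sq (r : ℝ) : cc r ^ 2 * (1 + r ^ 2) = 1 := by
  rw [cc, inv_pow, Real.sq_sqrt (by positivity), inv_mul_cancel₀ (by positivity)]

lemma cc_sq_le {r : ℝ} (hr : 0 ≤ r) (hr1 : r ≤ 1) : cc r ^ 2 ≤ 1 - r ^ 2 / 2 := by
  have h1 := cc_sq r
  have h2 : r ^ 2 ≤ 1 := pow_le_one₀ hr hr1
  have h3 : 0 ≤ r ^ 2 := sq_nonneg r
  have h4 : cc r ^ 2 * (1 + r ^ 2) ≤ (1 - r ^ 2 / 2) * (1 + r ^ 2) := by nlinarith
  exact le_of_mul_le_mul_right h4 (by positivity)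

/-- The unitary `c (1 + i r h)`. -/
def ub (h : A) (r : ℝ) : A := (cc r : ℂ) • (1 + ((r : ℂ) * Complex.I) • h)

lemma ub_unitary {h : A} (hh : star h = h) (h2 : h * h = 1) (r : ℝ) : ub h r ∈ unitary A := by
  have hc : (cc r : ℂ) ^ 2 * (1 + (r : ℂ) ^ 2) = 1 := by exact_mod_cast cc_sq r
  have hs : star (ub h r) = (cc r : ℂ) • (1 - ((r : ℂ) * Complex.I) • h) := by
    simp [ub, star_smul, hh, sub_eq_add_neg]
  rw [Unitary.mem_iff, hs, ub]
  constructor
  · simp only [smul_mul_assoc, mul_smul_comm, smul_smul, sub_mul, mul_add, one_mul, mul_one, h2,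
      smul_sub]
    match_scalars
    · linear_combination hc - (cc r : ℂ) ^ 2 * (r : ℂ) ^ 2 * Complex.I_mul_I
    · ring
  · simp only [smul_mul_assoc, mul_smul_comm, smul_smul, add_mul, mul_sub, one_mul, mul_one, h2,
      smul_add]
    match_scalars
    · linear_combination hc - (cc r : ℂ) ^ 2 * (r : ℂ) ^ 2 * Complex.I_mul_I
    · ring

lemma mul_ub (w h : A) (r : ℝ) : w * ub h r = (cc r : ℂ) • pert w h r := by
  rw [ub, pert, mul_smul_comm]

variable (τ) in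
/-- The weighted energy. -/
def En (S : Finset (List (Bool × A) × A)) (β : ℝ) (w : A) : ℝ :=
  ∑ x ∈ S, β ^ x.1.length * ‖τ (x.2 * evw w x.1)‖ ^ 2

lemma En_nonneg (S : Finset (List (Bool × A) × A)) {β : ℝ} (hβ : 0 ≤ β) (w : A) :
    0 ≤ En τ S β w := Finset.sum_nonneg fun _ _ => by positivity

lemma le_En {S : Finset (List (Bool × A) × A)} {β : ℝ} (hβ : 0 ≤ β) (hβ1 : β ≤ 1) (w : A)
    {x : List (Bool × A) × A} (hx : x ∈ S) {k : ℕ} (hk : x.1.length ≤ k) :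
    β ^ k * ‖τ (x.2 * evw w x.1)‖ ^ 2 ≤ En τ S β w :=
  (mul_le_mul_of_nonneg_right (pow_le_pow_of_le_one hβ hβ1 hk) (by positivity)).trans
    (Finset.single_le_sum (f := fun x : List (Bool × A) × A =>
      β ^ x.1.length * ‖τ (x.2 * evw w x.1)‖ ^ 2) (fun _ _ => by positivity) hx)

lemma step [Nontrivial A] {Q : StarSubalgebra ℂ A} (hAV : τ.AV (Q : Set A)) {X : Finset A}
    (hX : ∀ z ∈ X, ‖z‖ ≤ 1) {K : ℕ} {S : Finset (List (Bool × A) × A)}
    (hS : ∀ x, x ∈ S ↔ Mon τ X x.1 x.2 ∧ x.1.length ≤ K) {β : ℝ} (hβ : 0 < β) (hβ1 : β ≤ 1)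
    (hβS : 32 * (K : ℝ) ^ 4 * S.card * β ≤ 1) {w : A} (hw : w ∈ unitary A) {r : ℝ} (hr : 0 < r)
    (hr1 : r ≤ 1) :
    ∃ b ∈ Q, b ∈ unitary A ∧
      En τ S β (w * b) ≤ (1 - r ^ 2 / 8) * En τ S β w + S.card * cst K * r ^ 3 := by
  set G := En τ S β w with hG
  have hG0 : 0 ≤ G := En_nonneg S hβ.le w
  set F : ℕ → ℝ := fun k => Real.sqrt (G / β ^ (k - 1)) with hFdef
  have hev := Ev.forall_finset (τ := τ) (η := r ^ 4) S (P := fun x N h =>
    (∀ i, star (h i) = h i ∧ ‖h i‖ ≤ 1) →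
      ∑ i, ‖τ (x.2 * evw (pert w (h i) r) x.1)‖ ^ 2 ≤
        N * (‖τ (x.2 * evw w x.1)‖ ^ 2 +
          2 * ‖τ (x.2 * evw w x.1)‖ * (r ^ 2 * K ^ 2 * F x.1.length) + cst K * r ^ 3)) (by
    intro x hx
    obtain ⟨hM, hK⟩ := (hS x).mp hx
    refine ev_pair hw hX (Real.sqrt_nonneg _) hr hr1 hM hK fun W' t' hM' hl => ?_
    refine Real.le_sqrt_of_sq_le ?_
    rw [le_div_iff₀' (by positivity)]
    exact le_En hβ.le hβ1 w (x := (W', t')) ((hS _).mpr ⟨hM', by dsimp only; omega⟩)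
      (by dsimp only; omega))
  obtain ⟨N, h, hN, hh, hP⟩ := hev.exists hAV (by positivity)
  have hu : ∀ i, h i ∈ unitary A := fun i => by
    rw [Unitary.mem_iff, (hh i).2.1]; exact ⟨(hh i).2.2, (hh i).2.2⟩
  have hP' := fun x hx => hP x hx fun i => ⟨(hh i).2.1, (τ.norm_unitary (hu i)).le⟩
  have hc := cc_sq_le hr.le hr1
  have hc0 : 0 ≤ cc r ^ 2 := sq_nonneg _
  have hr2 : r ^ 2 ≤ 1 := pow_le_one₀ hr.le hr1
  have hN' : (0 : ℝ) ≤ N := Nat.cast_nonneg N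
  have hx : ∀ x ∈ S, ∑ i, β ^ x.1.length * ‖τ (x.2 * evw (w * ub (h i) r) x.1)‖ ^ 2 ≤
      N * ((1 - r ^ 2 / 4) * (β ^ x.1.length * ‖τ (x.2 * evw w x.1)‖ ^ 2) +
        (4 * r ^ 2 * K ^ 4 * β * G + cst K * r ^ 3)) := by
    intro x hx
    obtain ⟨hM, hK⟩ := (hS x).mp hx
    obtain ⟨k, hk⟩ : ∃ k, x.1.length = k + 1 :=
      Nat.exists_eq_succ_of_ne_zero fun h0 => hM.1 (List.length_eq_zero_iff.mp h0)
    have h1 := hP' x hx
    have hF2 : β ^ x.1.length * F x.1.length ^ 2 = β * G := by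
      simp only [hFdef]
      rw [Real.sq_sqrt (by positivity), hk, Nat.add_sub_cancel, pow_succ]
      field_simp
    have hF0 : 0 ≤ F x.1.length := Real.sqrt_nonneg _
    have h2 : ∀ i, ‖τ (x.2 * evw (w * ub (h i) r) x.1)‖ ^ 2 ≤
        (1 - r ^ 2 / 2) * ‖τ (x.2 * evw (pert w (h i) r) x.1)‖ ^ 2 := by
      intro i
      rw [mul_ub, evw_smul, mul_smul_comm, τ.tr_smul, norm_mul, mul_pow, norm_pow,
        Complex.norm_real, ← pow_mul, mul_comm _ 2, pow_mul, Real.norm_eq_abs, sq_abs, hk, pow_succ]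
      refine mul_le_mul_of_nonneg_right ?_ (by positivity)
      exact (mul_le_of_le_one_left hc0 (pow_le_one₀ hc0 (by linarith [sq_nonneg r]))).trans hc
    rw [← Finset.mul_sum]
    have h3 := Finset.sum_le_sum fun i (_ : i ∈ Finset.univ) => h2 i
    rw [← Finset.mul_sum] at h3
    set q := ‖τ (x.2 * evw w x.1)‖
    have hq0 : 0 ≤ q := norm_nonneg _
    set f := F x.1.length
    have hcst := cst_pos K
    have h4 : (1 - r ^ 2 / 2) * (q ^ 2 + 2 * q * (r ^ 2 * K ^ 2 * f) + cst K * r ^ 3) ≤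
        (1 - r ^ 2 / 4) * q ^ 2 + 4 * r ^ 2 * K ^ 4 * f ^ 2 + cst K * r ^ 3 := by
      have b1 : 0 ≤ r ^ 2 / 2 * (2 * q * (r ^ 2 * K ^ 2 * f) + cst K * r ^ 3) := by positivity
      have b2 : 0 ≤ r ^ 2 * (q / 2 - 2 * K ^ 2 * f) ^ 2 := by positivity
      nlinarith
    have h5 : ∑ i, ‖τ (x.2 * evw (w * ub (h i) r) x.1)‖ ^ 2 ≤
        N * ((1 - r ^ 2 / 4) * q ^ 2 + 4 * r ^ 2 * K ^ 4 * f ^ 2 + cst K * r ^ 3) := by
      refine h3.trans ((mul_le_mul_of_nonneg_left h1 (by linarith)).trans ?_)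
      rw [mul_left_comm]
      exact mul_le_mul_of_nonneg_left h4 hN'
    have hb : β ^ x.1.length ≤ 1 := pow_le_one₀ hβ.le hβ1
    have hb0 : 0 ≤ β ^ x.1.length := by positivity
    refine (mul_le_mul_of_nonneg_left h5 hb0).trans ?_
    rw [mul_left_comm]
    refine mul_le_mul_of_nonneg_left ?_ hN'
    have b3 : β ^ x.1.length * (cst K * r ^ 3) ≤ cst K * r ^ 3 :=
      mul_le_of_le_one_left (by positivity) hb
    have b4 : β ^ x.1.length * (4 * r ^ 2 * K ^ 4 * f ^ 2) = 4 * r ^ 2 * K ^ 4 * β * G := by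
      linear_combination (4 * r ^ 2 * K ^ 4) * hF2
    nlinarith
  have hsum : ∑ i : Fin N, En τ S β (w * ub (h i) r) ≤
      ∑ _i : Fin N, ((1 - r ^ 2 / 8) * G + S.card * cst K * r ^ 3) := by
    unfold En
    rw [Finset.sum_comm]
    refine (Finset.sum_le_sum hx).trans ?_
    rw [← Finset.mul_sum, Finset.sum_add_distrib, ← Finset.mul_sum, Finset.sum_const,
      Finset.sum_const, Finset.card_univ, Fintype.card_fin, nsmul_eq_mul, nsmul_eq_mul]
    refine mul_le_mul_of_nonneg_left ?_ hN'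
    change (1 - r ^ 2 / 4) * G + _ ≤ _
    have b1 : (32 * (K : ℝ) ^ 4 * S.card * β) * (r ^ 2 * G) ≤ r ^ 2 * G :=
      mul_le_of_le_one_left (by positivity) hβS
    nlinarith
  obtain ⟨i, -, hi⟩ := Finset.exists_le_of_sum_le ⟨⟨0, hN⟩, Finset.mem_univ _⟩ hsum
  refine ⟨ub (h i) r, ?_, ub_unitary (hh i).2.1 (hh i).2.2 r, hi⟩
  exact Q.smul_mem (Q.add_mem Q.one_mem (Q.smul_mem (hh i).1 _)) _

omit [CStarAlgebra A] in
lemma finite_words (X : Finset A) (K : ℕ) :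
    {W : List (Bool × A) | W.length ≤ K ∧ ∀ p ∈ W, p.2 ∈ X}.Finite := by
  refine ((List.finite_length_le (Bool × X) K).image
    (List.map fun p => (p.1, (p.2 : A)))).subset ?_
  rintro W ⟨hl, hX⟩
  refine ⟨W.attach.map fun p => (p.1.1, ⟨p.1.2, hX _ p.2⟩), by simpa using hl, ?_⟩
  simp only [List.map_map, Function.comp_def]
  exact List.attach_map_subtype_val W

lemma approxFree_of_norm_le {Q : StarSubalgebra ℂ A} (hAV : τ.AV (Q : Set A)) {y : A}
    (hy : y ∈ unitary A) {X : Finset A} (hX : ∀ z ∈ X, ‖z‖ ≤ 1) (K : ℕ) {δ : ℝ} (hδ : 0 < δ) :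
    ∃ a ∈ Q, a ∈ unitary A ∧ ∀ W : List (Bool × A), W ≠ [] → W.length ≤ K →
      (∀ p ∈ W, p.2 ∈ X) → RedW τ W → ‖τ (evw (y * a) W)‖ ≤ δ := by
  have := τ.nontrivial
  have hfin : {x : List (Bool × A) × A | Mon τ X x.1 x.2 ∧ x.1.length ≤ K}.Finite := by
    refine ((finite_words X K).prod (X.finite_toSet.insert 1)).subset ?_
    rintro x ⟨⟨-, h1, -, h2⟩, h3⟩
    exact ⟨⟨h3, h1⟩, h2⟩
  set S := hfin.toFinset
  have hS : ∀ x, x ∈ S ↔ Mon τ X x.1 x.2 ∧ x.1.length ≤ K := fun x => hfin.mem_toFinset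
  set β : ℝ := (1 + 32 * (K : ℝ) ^ 4 * S.card)⁻¹ with hβdef
  have hβ : 0 < β := by positivity
  have hβ1 : β ≤ 1 := inv_le_one_of_one_le₀ (le_add_of_nonneg_right (by positivity))
  have hβS : 32 * (K : ℝ) ^ 4 * S.card * β ≤ 1 := by
    rw [hβdef, mul_inv_le_iff₀ (by positivity)]; linarith
  set C : ℝ := S.card * cst K with hC
  have hC0 : 0 ≤ C := mul_nonneg (Nat.cast_nonneg _) (cst_pos K).le
  set V : Set ℝ := {v | ∃ a ∈ Q, a ∈ unitary A ∧ v = En τ S β (y * a)} with hV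
  have hVne : V.Nonempty := ⟨_, 1, Q.one_mem, one_mem _, rfl⟩
  have hVb : BddBelow V := ⟨0, by rintro _ ⟨a, -, -, rfl⟩; exact En_nonneg S hβ.le _⟩
  have hm : ∀ r : ℝ, 0 < r → r ≤ 1 → sInf V ≤ 8 * C * r := by
    intro r hr hr1
    have hr2 : r ^ 2 ≤ 1 := pow_le_one₀ hr.le hr1
    have h1 : (sInf V - C * r ^ 3) / (1 - r ^ 2 / 8) ≤ sInf V := by
      refine le_csInf hVne ?_
      rintro _ ⟨a, haQ, hau, rfl⟩
      obtain ⟨b, hbQ, hbu, hb⟩ := step hAV hX hS hβ hβ1 hβS (mul_mem hy hau) hr hr1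
      have h2 : sInf V ≤ En τ S β (y * a * b) :=
        csInf_le hVb ⟨a * b, Q.mul_mem haQ hbQ, mul_mem hau hbu, by rw [mul_assoc]⟩
      rw [div_le_iff₀' (by linarith)]
      linarith
    rw [div_le_iff₀' (by linarith)] at h1
    have h3 : r ^ 2 * sInf V ≤ r ^ 2 * (8 * C * r) := by nlinarith
    exact le_of_mul_le_mul_left h3 (by positivity)
  have hlt : sInf V < β ^ K * δ ^ 2 := by
    set ε := β ^ K * δ ^ 2 with hε
    have hε0 : 0 < ε := by positivity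
    have h1 := hm (min 1 (ε / (8 * C + 1))) (by positivity) (min_le_left _ _)
    have h2 : 8 * C * min 1 (ε / (8 * C + 1)) ≤ 8 * C * (ε / (8 * C + 1)) :=
      mul_le_mul_of_nonneg_left (min_le_right _ _) (by positivity)
    have h3 : 8 * C * (ε / (8 * C + 1)) < ε := by
      rw [← mul_div_assoc, div_lt_iff₀ (by positivity)]; nlinarith
    linarith
  obtain ⟨_, ⟨a, haQ, hau, rfl⟩, ha⟩ := exists_lt_of_csInf_lt hVne hlt
  refine ⟨a, haQ, hau, fun W hW hK hWX hR => ?_⟩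
  have h1 := le_En (τ := τ) hβ.le hβ1 (y * a) (x := (W, 1))
    ((hS _).mpr ⟨⟨hW, hWX, hR, Or.inl rfl⟩, hK⟩) hK
  dsimp only at h1
  rw [one_mul] at h1
  have h2 := lt_of_mul_lt_mul_left (h1.trans_lt ha) (by positivity)
  exact (pow_lt_pow_iff_left₀ (norm_nonneg _) hδ.le two_ne_zero).mp h2 |>.le

lemma evw_map_smul (c : ℂ) (w : A) (W : List (Bool × A)) :
    evw w (W.map fun p => (p.1, c • p.2)) = c ^ W.length • evw w W := by
  induction W with
  | nil => simp [evw_nil]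
  | cons p W ih =>
    rw [List.map_cons, evw_cons, evw_cons, ih, List.length_cons, pow_succ]
    simp only [smul_mul_assoc, mul_smul_comm, smul_smul]

end Popa

open Popa in
theorem TrState.AV.approxFree {A : Type*} [CStarAlgebra A] {τ : TrState A}
    {Q : StarSubalgebra ℂ A} (h : τ.AV (Q : Set A)) : τ.ApproxFree Q := by
  classical
  intro y hy X K δ hδ
  set R : ℝ := 1 + ∑ z ∈ X, ‖z‖ with hR
  have hR1 : 1 ≤ R := le_add_of_nonneg_right (Finset.sum_nonneg fun _ _ => norm_nonneg _)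
  have hR0 : 0 < R := by linarith
  have hX : ∀ z ∈ X.image (fun z => ((R⁻¹ : ℝ) : ℂ) • z), ‖z‖ ≤ 1 := by
    intro z' hz'
    obtain ⟨z, hz, rfl⟩ := Finset.mem_image.mp hz'
    rw [norm_smul, Complex.norm_real, Real.norm_of_nonneg (by positivity), inv_mul_le_iff₀ hR0]
    have := Finset.single_le_sum (f := fun z : A => ‖z‖) (fun _ _ => norm_nonneg _) hz
    linarith
  obtain ⟨a, haQ, hau, ha⟩ := approxFree_of_norm_le h hy hX K (δ := R⁻¹ ^ K * δ) (by positivity)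
  refine ⟨a, haQ, hau, fun W hW hK hWX hRW => ?_⟩
  have h1 := ha (W.map fun p => (p.1, ((R⁻¹ : ℝ) : ℂ) • p.2)) (by simpa using hW)
    (by simpa using hK) (by
      intro p' hp'
      obtain ⟨p, hp, rfl⟩ := List.mem_map.mp hp'
      exact Finset.mem_image_of_mem _ (hWX p hp)) (by
      rw [RedW, List.isChain_map]
      refine List.IsChain.imp ?_ hRW
      intro p q hpq hne
      rw [τ.tr_smul, hpq hne, mul_zero])
  rw [evw_map_smul, τ.tr_smul, norm_mul, norm_pow, Complex.norm_real,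
    Real.norm_of_nonneg (by positivity)] at h1
  have h2 : R⁻¹ ^ K ≤ R⁻¹ ^ W.length :=
    pow_le_pow_of_le_one (by positivity) (inv_le_one_of_one_le₀ hR1) hK
  have h3 := h1.trans (mul_le_mul_of_nonneg_right h2 hδ.le)
  exact le_of_mul_le_mul_left h3 (by positivity)

end Crest.Agent.Lib.Tracial
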