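import Crest.Agent.Lib.Tracial.Iface

/-! Pauli towers and the averaging property, from the cutting property. -/

set_option autoImplicit false

open scoped ComplexConjugate InnerProductSpace Topology
open Filter

noncomputable section

namespace Crest.Agent.Lib.Tracial

variable {A : Type*} [CStarAlgebra A]

/-- A Pauli pair: two anticommuting symmetries. -/
structure PPair (s t : A) : Prop where
  s_sa : star s = s
  t_sa : star t = t
  s_sq : s * s = 1
  t_sq : t * t = 1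
  anti : s * t = -(t * s)

namespace PPair

variable {s t : A} (h : PPair s t)
include h

lemma ss (x : A) : s * (s * x) = x := by rw [← mul_assoc, h.s_sq, one_mul]
lemma tt (x : A) : t * (t * x) = x := by rw [← mul_assoc, h.t_sq, one_mul]
lemma ts : t * s = -(s * t) := by rw [h.anti, neg_neg]
lemma ts' (x : A) : t * (s * x) = -(s * (t * x)) := by
  rw [← mul_assoc, h.ts, neg_mul, mul_assoc]

lemma s_unitary : s ∈ unitary A := by
  rw [Unitary.mem_iff, h.s_sa]; exact ⟨h.s_sq, h.s_sq⟩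
lemma t_unitary : t ∈ unitary A := by
  rw [Unitary.mem_iff, h.t_sa]; exact ⟨h.t_sq, h.t_sq⟩

end PPair

/-- The twirl by one symmetry. -/
def halfTw (s : A) : A →ₗ[ℂ] A where
  toFun y := (2 : ℂ)⁻¹ • (y + s * y * s)
  map_add' x y := by
    simp only [mul_add, add_mul, smul_add]; abel
  map_smul' c x := by
    simp only [mul_smul_comm, smul_mul_assoc, RingHom.id_apply, smul_add, smul_comm c]

lemma halfTw_apply (s y : A) : halfTw s y = (2 : ℂ)⁻¹ • (y + s * y * s) := rfl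

/-- The twirl by a Pauli pair. -/
def pTw (s t : A) : A →ₗ[ℂ] A := halfTw s ∘ₗ halfTw t

lemma pTw_apply (s t y : A) : pTw s t y = halfTw s (halfTw t y) := rfl

lemma halfTw_one {s : A} (hs : s * s = 1) : halfTw s 1 = 1 := by
  rw [halfTw_apply, mul_one, hs, ← two_smul ℂ (1 : A), smul_smul]
  norm_num

lemma halfTw_mem {Q : StarSubalgebra ℂ A} {s y : A} (hs : s ∈ Q) (hy : y ∈ Q) :
    halfTw s y ∈ Q :=
  Q.smul_mem (Q.add_mem hy (Q.mul_mem (Q.mul_mem hs hy) hs)) _

lemma pTw_mem {Q : StarSubalgebra ℂ A} {s t y : A} (hs : s ∈ Q) (ht : t ∈ Q) (hy : y ∈ Q) :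
    pTw s t y ∈ Q := halfTw_mem hs (halfTw_mem ht hy)

lemma PPair.pTw_one {s t : A} (h : PPair s t) : pTw s t 1 = 1 := by
  rw [pTw_apply, halfTw_one h.t_sq, halfTw_one h.s_sq]

lemma PPair.pTw_eq {s t : A} (y : A) :
    pTw s t y = (4 : ℂ)⁻¹ • (y + s * y * s + t * y * t + s * (t * y * t) * s) := by
  simp only [pTw_apply, halfTw_apply, mul_smul_comm, smul_mul_assoc, mul_add, add_mul]
  module

lemma PPair.s_comm_pTw {s t : A} (h : PPair s t) (y : A) : s * pTw s t y = pTw s t y * s := by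
  rw [PPair.pTw_eq]
  simp only [mul_smul_comm, smul_mul_assoc, mul_add, add_mul, mul_assoc, h.ss, h.s_sq, mul_one]
  module

lemma PPair.t_comm_pTw {s t : A} (h : PPair s t) (y : A) : t * pTw s t y = pTw s t y * t := by
  rw [PPair.pTw_eq]
  simp only [mul_smul_comm, smul_mul_assoc, mul_add, add_mul, mul_assoc, h.ts', h.ts, h.tt,
    h.t_sq, mul_one, mul_neg, neg_mul, neg_neg]
  module

lemma PPair.mem_cent {s t : A} (h : PPair s t) {z : A} :
    z ∈ StarSubalgebra.centralizer ℂ ({s, t} : Set A) ↔ s * z = z * s ∧ t * z = z * t := by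
  rw [StarSubalgebra.mem_centralizer_iff]
  constructor
  · intro H
    exact ⟨(H s (by simp)).1, (H t (by simp)).1⟩
  · rintro ⟨h1, h2⟩ g hg
    rcases hg with rfl | rfl
    · rw [h.s_sa]; exact ⟨h1, h1⟩
    · rw [h.t_sa]; exact ⟨h2, h2⟩

lemma PPair.pTw_mem_cent {s t : A} (h : PPair s t) (y : A) :
    pTw s t y ∈ StarSubalgebra.centralizer ℂ ({s, t} : Set A) :=
  h.mem_cent.mpr ⟨h.s_comm_pTw y, h.t_comm_pTw y⟩

lemma PPair.decomp {s t : A} (h : PPair s t) (q : A) :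
    q = pTw s t q + s * pTw s t (s * q) + t * pTw s t (t * q) + s * t * pTw s t (t * s * q) := by
  simp only [PPair.pTw_eq]
  simp only [mul_smul_comm, mul_add, mul_assoc, h.ts', h.ts, h.tt,
    h.ss, mul_neg, neg_mul, neg_neg]
  module

namespace TrState

variable (τ : TrState A)

lemma tr_halfTw {s : A} (hs : s * s = 1) (y : A) : τ (halfTw s y) = τ y := by
  rw [halfTw_apply, tr_smul, tr_add, tr_cyc, hs, one_mul]; ring

lemma n2_halfTw_le {s : A} (hs : s ∈ unitary A) (y : A) : τ.n2 (halfTw s y) ≤ τ.n2 y := by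
  rw [halfTw_apply, n2_smul]
  have h1 := τ.n2_add_le y (s * y * s)
  rw [τ.n2_mul_unitary _ hs, τ.n2_unitary_mul hs] at h1
  have h2 : ‖(2 : ℂ)⁻¹‖ = 1 / 2 := by simp
  rw [h2]; linarith

lemma tr_pTw {s t : A} (h : PPair s t) (y : A) : τ (pTw s t y) = τ y := by
  rw [pTw_apply, τ.tr_halfTw h.s_sq, τ.tr_halfTw h.t_sq]

lemma n2_pTw_le_half {s t : A} (h : PPair s t) (y : A) :
    τ.n2 (pTw s t y) ≤ τ.n2 (halfTw t y) := τ.n2_halfTw_le h.s_unitary _

lemma n2_pTw_le {s t : A} (h : PPair s t) (y : A) : τ.n2 (pTw s t y) ≤ τ.n2 y :=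
  (τ.n2_pTw_le_half h y).trans (τ.n2_halfTw_le h.t_unitary _)

variable {τ}

lemma comm_of_limit (hF : τ.Faithful) {g y : A} {x : ℕ → A} (hx : ∀ n, g * x n = x n * g)
    (hlim : Tendsto (fun n => τ.n2 (x n - y)) atTop (𝓝 0)) : g * y = y * g := by
  rw [← sub_eq_zero]
  apply hF
  refine le_antisymm ?_ (τ.n2_nonneg _)
  have h1 : Tendsto (fun n => 2 * ‖g‖ * τ.n2 (x n - y)) atTop (𝓝 (2 * ‖g‖ * 0)) :=
    hlim.const_mul _
  rw [mul_zero] at h1
  refine ge_of_tendsto' h1 fun n => ?_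
  have h2 : g * y - y * g = (x n - y) * g - g * (x n - y) := by
    rw [sub_mul, mul_sub, hx n]; abel
  rw [h2]
  have h3 := τ.n2_sub_le ((x n - y) * g) (g * (x n - y))
  have h4 := τ.n2_mul_le_right (x n - y) g
  have h5 := τ.n2_mul_le_left g (x n - y)
  linarith

lemma wclosed_inf_cent (hF : τ.Faithful) {s t : A} (h : PPair s t) {Q : StarSubalgebra ℂ A}
    (hQ : τ.WClosed Q) :
    τ.WClosed ((Q ⊓ StarSubalgebra.centralizer ℂ ({s, t} : Set A) : StarSubalgebra ℂ A) : Set A) := by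
  intro x C y hx hC hlim
  have hx' : ∀ n, x n ∈ Q ∧ x n ∈ StarSubalgebra.centralizer ℂ ({s, t} : Set A) := fun n =>
    StarSubalgebra.mem_inf.mp (hx n)
  refine StarSubalgebra.mem_inf.mpr ⟨hQ x C y (fun n => (hx' n).1) hC hlim, h.mem_cent.mpr ⟨?_, ?_⟩⟩
  · exact comm_of_limit hF (fun n => (h.mem_cent.mp (hx' n).2).1) hlim
  · exact comm_of_limit hF (fun n => (h.mem_cent.mp (hx' n).2).2) hlim

lemma irr_inf_cent {s t : A} (h : PPair s t) {Q M : StarSubalgebra ℂ A} (hs : s ∈ Q) (ht : t ∈ Q)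
    (hirr : Irr Q M) :
    Irr (Q ⊓ StarSubalgebra.centralizer ℂ ({s, t} : Set A))
      (M ⊓ StarSubalgebra.centralizer ℂ ({s, t} : Set A)) := by
  intro z hz hcomm
  obtain ⟨hzM, hzC⟩ := StarSubalgebra.mem_inf.mp hz
  obtain ⟨hzs, hzt⟩ := h.mem_cent.mp hzC
  refine hirr z hzM fun q hq => ?_
  have key : ∀ y ∈ Q, Commute z (pTw s t y) := fun y hy =>
    hcomm _ (StarSubalgebra.mem_inf.mpr ⟨pTw_mem hs ht hy, h.pTw_mem_cent y⟩)
  have cs : Commute z s := hzs.symm
  have ct : Commute z t := hzt.symm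
  have : Commute z (pTw s t q + s * pTw s t (s * q) + t * pTw s t (t * q)
      + s * t * pTw s t (t * s * q)) :=
    (((key q hq).add_right (cs.mul_right (key _ (Q.mul_mem hs hq)))).add_right
      (ct.mul_right (key _ (Q.mul_mem ht hq)))).add_right
      ((cs.mul_right ct).mul_right (key _ (Q.mul_mem (Q.mul_mem ht hs) hq)))
  rw [← h.decomp q] at this
  exact this

lemma infdim_inf_cent {s t : A} (h : PPair s t) {Q : StarSubalgebra ℂ A} (hs : s ∈ Q) (ht : t ∈ Q)
    (hinf : ¬ FiniteDimensional ℂ Q) :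
    ¬ FiniteDimensional ℂ
      (Q ⊓ StarSubalgebra.centralizer ℂ ({s, t} : Set A) : StarSubalgebra ℂ A) := by
  intro hfin
  apply hinf
  set C : StarSubalgebra ℂ A := Q ⊓ StarSubalgebra.centralizer ℂ ({s, t} : Set A) with hC
  let V : Submodule ℂ A := Subalgebra.toSubmodule C.toSubalgebra
  have hV : FiniteDimensional ℂ V := hfin
  let W : Submodule ℂ A := V ⊔ V.map (LinearMap.mulLeft ℂ s) ⊔ V.map (LinearMap.mulLeft ℂ t) ⊔
    V.map (LinearMap.mulLeft ℂ (s * t))
  have hW : FiniteDimensional ℂ W := inferInstance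
  have hle : Subalgebra.toSubmodule Q.toSubalgebra ≤ W := by
    intro q hq
    have hq' : q ∈ Q := hq
    have key : ∀ y ∈ Q, pTw s t y ∈ V := fun y hy =>
      (StarSubalgebra.mem_inf.mpr ⟨pTw_mem hs ht hy, h.pTw_mem_cent y⟩ : pTw s t y ∈ C)
    rw [h.decomp q]
    refine Submodule.add_mem_sup (Submodule.add_mem_sup (Submodule.add_mem_sup (key q hq') ?_) ?_) ?_
    · exact ⟨_, key _ (Q.mul_mem hs hq'), rfl⟩
    · exact ⟨_, key _ (Q.mul_mem ht hq'), rfl⟩
    · exact ⟨_, key _ (Q.mul_mem (Q.mul_mem ht hs) hq'), rfl⟩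
  exact Submodule.finiteDimensional_of_le hle

end TrState

/-- The four self-adjoint Pauli elements attached to a pair. -/
def pauliEl (s t : A) : Fin 4 → A := ![1, s, t, Complex.I • (s * t)]

/-- Sign of the commutation with the first symmetry. -/
def pauliSgnS : Fin 4 → ℤ := ![1, 1, -1, -1]

/-- Sign of the commutation with the second symmetry. -/
def pauliSgnT : Fin 4 → ℤ := ![1, -1, 1, -1]

lemma pauliSgn_ne (a b : Fin 4) (hab : a ≠ b) :
    pauliSgnS a * pauliSgnS b = -1 ∨ pauliSgnT a * pauliSgnT b = -1 := by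
  revert a b; decide

namespace PPair

variable {s t : A} (h : PPair s t)
include h

lemma el_sa (a : Fin 4) : star (pauliEl s t a) = pauliEl s t a := by
  fin_cases a
  · simp [pauliEl]
  · simp [pauliEl, h.s_sa]
  · simp [pauliEl, h.t_sa]
  · simp [pauliEl, h.s_sa, h.t_sa, h.ts]

lemma el_sq (a : Fin 4) : pauliEl s t a * pauliEl s t a = 1 := by
  fin_cases a
  · simp [pauliEl]
  · simp [pauliEl, h.s_sq]
  · simp [pauliEl, h.t_sq]
  · simp [pauliEl, mul_assoc, h.ts', h.s_sq, h.t_sq, smul_smul]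

lemma s_el (a : Fin 4) : s * pauliEl s t a = pauliSgnS a • (pauliEl s t a * s) := by
  fin_cases a
  · simp [pauliEl, pauliSgnS]
  · simp [pauliEl, pauliSgnS]
  · simp [pauliEl, pauliSgnS, h.ts]
  · simp [pauliEl, pauliSgnS, mul_assoc, h.ts, h.ss]

lemma t_el (a : Fin 4) : t * pauliEl s t a = pauliSgnT a • (pauliEl s t a * t) := by
  fin_cases a
  · simp [pauliEl, pauliSgnT]
  · simp [pauliEl, pauliSgnT, h.ts]
  · simp [pauliEl, pauliSgnT]
  · simp [pauliEl, pauliSgnT, mul_assoc, h.ts', h.t_sq]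

lemma sum_el (x : A) : ∑ a, pauliEl s t a * x * pauliEl s t a = (4 : ℂ) • pTw s t x := by
  rw [PPair.pTw_eq, Fin.sum_univ_four, smul_smul]
  simp [pauliEl, mul_assoc, h.ts, smul_smul]

omit h in
lemma el_comm {g : A} (hs : Commute g s) (ht : Commute g t) (a : Fin 4) :
    Commute g (pauliEl s t a) := by
  fin_cases a
  · simp [pauliEl]
  · simpa [pauliEl] using hs
  · simpa [pauliEl] using ht
  · simpa [pauliEl] using (hs.mul_right ht).smul_right Complex.I

omit h in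
lemma el_mem {Q : StarSubalgebra ℂ A} (hs : s ∈ Q) (ht : t ∈ Q) (a : Fin 4) :
    pauliEl s t a ∈ Q := by
  fin_cases a
  · simp [pauliEl]
  · simpa [pauliEl] using hs
  · simpa [pauliEl] using ht
  · simpa [pauliEl] using Q.smul_mem (Q.mul_mem hs ht) Complex.I

end PPair

namespace TrState

variable {τ : TrState A}

lemma tr_eq_zero_of_anti {u x : A} (hu : u * u = 1) (hx : u * x = -(x * u)) : τ x = 0 := by
  have h1 : τ (u * x * u) = τ x := by rw [tr_cyc, hu, one_mul]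
  rw [hx, neg_mul, mul_assoc, hu, mul_one, tr_neg] at h1
  linear_combination (-1 / 2 : ℂ) * h1

lemma tr_el_mul_el {s t : A} (h : PPair s t) {a b : Fin 4} (hab : a ≠ b) {y : A}
    (hs : Commute y s) (ht : Commute y t) : τ (pauliEl s t a * pauliEl s t b * y) = 0 := by
  rcases pauliSgn_ne a b hab with H | H
  · refine tr_eq_zero_of_anti h.s_sq ?_
    rw [← mul_assoc, ← mul_assoc, h.s_el a, smul_mul_assoc, mul_assoc _ s, h.s_el b,
      mul_smul_comm, smul_smul, H, smul_mul_assoc, mul_assoc _ y s, hs.eq]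
    simp [mul_assoc]
  · refine tr_eq_zero_of_anti h.t_sq ?_
    rw [← mul_assoc, ← mul_assoc, h.t_el a, smul_mul_assoc, mul_assoc _ t, h.t_el b,
      mul_smul_comm, smul_smul, H, smul_mul_assoc, mul_assoc _ y t, ht.eq]
    simp [mul_assoc]

/-- The iterated twirl along a tower. -/
def towerTw (s t : ℕ → A) : ℕ → A →ₗ[ℂ] A
  | 0 => LinearMap.id
  | k + 1 => pTw (s k) (t k) ∘ₗ towerTw s t k

lemma tower_pair {s t : ℕ → A} (h : PauliTower s t) (j : ℕ) : PPair (s j) (t j) :=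
  ⟨h.s_sa j, h.t_sa j, h.s_sq j, h.t_sq j, h.anti j⟩

lemma exists_family {s t : ℕ → A} (h : PauliTower s t) (k : ℕ) :
    ∃ (ι : Type) (_ : Fintype ι) (g : ι → A), Fintype.card ι = 4 ^ k ∧
      (∀ i, g i ∈ StarAlgebra.adjoin ℂ (Set.range s ∪ Set.range t) ∧ star (g i) = g i ∧
        g i * g i = 1 ∧ ∀ j, k ≤ j → Commute (g i) (s j) ∧ Commute (g i) (t j)) ∧
      (∀ y, ∑ i, g i * y * g i = ((4 : ℂ) ^ k) • towerTw s t k y) ∧
      (∀ i i', i ≠ i' → τ (g i * g i') = 0) := by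
  induction k with
  | zero =>
    refine ⟨Unit, inferInstance, fun _ => 1, by simp, fun i => ⟨one_mem _, star_one _, one_mul _,
      fun j _ => ⟨Commute.one_left _, Commute.one_left _⟩⟩, fun y => by simp [towerTw],
      fun i i' hii => absurd (Subsingleton.elim i i') hii⟩
  | succ k ih =>
    obtain ⟨ι, hι, g, hcard, hg, hsum, horth⟩ := ih
    have hp := tower_pair h k
    have hc : ∀ i a, Commute (g i) (pauliEl (s k) (t k) a) := fun i a =>
      PPair.el_comm ((hg i).2.2.2 k le_rfl).1 ((hg i).2.2.2 k le_rfl).2 a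
    refine ⟨ι × Fin 4, inferInstance, fun p => pauliEl (s k) (t k) p.2 * g p.1, ?_, ?_, ?_, ?_⟩
    · rw [Fintype.card_prod, hcard, Fintype.card_fin, pow_succ]
    · rintro ⟨i, a⟩
      refine ⟨mul_mem (PPair.el_mem ?_ ?_ a) (hg i).1, ?_, ?_, ?_⟩
      · exact StarAlgebra.subset_adjoin ℂ _ (Or.inl ⟨k, rfl⟩)
      · exact StarAlgebra.subset_adjoin ℂ _ (Or.inr ⟨k, rfl⟩)
      · simp only
        rw [star_mul, (hg i).2.1, hp.el_sa, (hc i a).eq]
      · simp only
        rw [mul_assoc, ← mul_assoc (g i), (hc i a).eq, mul_assoc, (hg i).2.2.1, mul_one, hp.el_sq]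
      · intro j hj
        have hjk : j ≠ k := by omega
        have h1 : Commute (s j) (pauliEl (s k) (t k) a) :=
          PPair.el_comm (h.ss j k) (h.st j k hjk) a
        have h2 : Commute (t j) (pauliEl (s k) (t k) a) :=
          PPair.el_comm (h.st k j hjk.symm).symm (h.tt j k) a
        exact ⟨h1.symm.mul_left ((hg i).2.2.2 j (by omega)).1,
          h2.symm.mul_left ((hg i).2.2.2 j (by omega)).2⟩
    · intro y
      rw [Fintype.sum_prod_type_right]
      have : ∀ a : Fin 4, ∑ i : ι, pauliEl (s k) (t k) a * g i * y * (pauliEl (s k) (t k) a * g i)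
          = pauliEl (s k) (t k) a * (∑ i, g i * y * g i) * pauliEl (s k) (t k) a := by
        intro a
        rw [Finset.mul_sum, Finset.sum_mul]
        refine Finset.sum_congr rfl fun i _ => ?_
        rw [← (hc i a).eq]
        nth_rewrite 1 [(hc i a).eq]
        simp only [mul_assoc]
      simp only [this]
      rw [hp.sum_el, hsum, map_smul, smul_smul, pow_succ, mul_comm]
      rfl
    · rintro ⟨i, a⟩ ⟨i', b⟩ hne
      have e : pauliEl (s k) (t k) a * g i * (pauliEl (s k) (t k) b * g i')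
          = pauliEl (s k) (t k) a * pauliEl (s k) (t k) b * (g i * g i') := by
        rw [mul_assoc, ← mul_assoc (g i), (hc i b).eq]
        simp only [mul_assoc]
      simp only
      rw [e]
      by_cases hab : a = b
      · subst hab
        rw [hp.el_sq, one_mul]
        exact horth i i' fun hii => hne (by rw [hii])
      · exact tr_el_mul_el hp hab
          ((((hg i).2.2.2 k le_rfl).1).mul_left ((hg i').2.2.2 k le_rfl).1)
          ((((hg i).2.2.2 k le_rfl).2).mul_left ((hg i').2.2.2 k le_rfl).2)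

lemma bessel_family {ι : Type} [Fintype ι] {g : ι → A} (hsa : ∀ i, star (g i) = g i)
    (hsq : ∀ i, g i * g i = 1) (horth : ∀ i i', i ≠ i' → τ (g i * g i') = 0) (y : A) :
    ∑ i, ‖τ (g i * y)‖ ^ 2 ≤ τ.n2 y ^ 2 := by
  classical
  have hon : Orthonormal ℂ (fun i => τ.toL2 (g i)) := by
    rw [orthonormal_iff_ite]
    intro i j
    rw [inner_toL2, hsa]
    split_ifs with hij
    · subst hij; rw [hsq, tr_one]
    · exact horth i j hij
  have := hon.sum_inner_products_le (τ.toL2 y) (s := Finset.univ)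
  simp only [inner_toL2, hsa] at this
  exact this

/-- A tower whose iterated twirls converge to the trace has the averaging property. -/
lemma av_of_tower {s t : ℕ → A} (h : PauliTower s t)
    (hlim : ∀ y, Tendsto (fun k => τ.n2 (towerTw s t k y - τ y • (1 : A))) atTop (𝓝 0)) :
    τ.AV (StarAlgebra.adjoin ℂ (Set.range s ∪ Set.range t)) := by
  intro Y η hη
  have h1 : ∀ᶠ k in atTop, ∀ y ∈ Y, τ.n2 (towerTw s t k y - τ y • (1 : A)) ≤ η :=
    (eventually_all_finset Y).mpr fun y _ => (hlim y).eventually (ge_mem_nhds hη)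
  have h2 : ∀ᶠ k : ℕ in atTop, ∀ y ∈ Y, ((4 : ℝ)⁻¹) ^ k * τ.n2 y ^ 2 ≤ η := by
    refine (eventually_all_finset Y).mpr fun y _ => ?_
    have : Tendsto (fun k : ℕ => ((4 : ℝ)⁻¹) ^ k * τ.n2 y ^ 2) atTop (𝓝 (0 * τ.n2 y ^ 2)) :=
      (tendsto_pow_atTop_nhds_zero_of_lt_one (by norm_num) (by norm_num)).mul_const _
    rw [zero_mul] at this
    exact this.eventually (ge_mem_nhds hη)
  obtain ⟨k, hk1, hk2⟩ := (h1.and h2).exists
  obtain ⟨ι, hι, g, hcard, hg, hsum, horth⟩ := exists_family (τ := τ) h k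
  let e : ι ≃ Fin (4 ^ k) := Fintype.equivFinOfCardEq hcard
  refine ⟨4 ^ k, fun i => g (e.symm i), by positivity,
    fun i => ⟨(hg _).1, (hg _).2.1, (hg _).2.2.1⟩, fun y hy => ⟨?_, ?_⟩⟩
  · rw [Equiv.sum_comp e.symm (fun i => g i * y * g i), hsum, smul_smul]
    push_cast
    rw [inv_mul_cancel₀ (pow_ne_zero _ (by norm_num)), one_smul]
    exact hk1 y hy
  · rw [Equiv.sum_comp e.symm (fun i => ‖τ (g i * y)‖ ^ 2)]
    refine le_trans ?_ (hk2 y hy)
    push_cast
    rw [inv_pow]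
    exact mul_le_mul_of_nonneg_left
      (bessel_family (fun i => (hg i).2.1) (fun i => (hg i).2.2.1) horth y) (by positivity)

/-- The state of the recursive construction of a tower. -/
structure TowerSt (τ : TrState A) (Q₀ : StarSubalgebra ℂ A) where
  /-- the current small algebra -/
  Q : StarSubalgebra ℂ A
  /-- the current big algebra -/
  M : StarSubalgebra ℂ A
  /-- the current twirl -/
  E : A →ₗ[ℂ] A
  le₀ : Q ≤ Q₀
  le : Q ≤ M
  wQ : τ.WClosed Q
  wM : τ.WClosed M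
  irr : Irr Q M
  inf : ¬ FiniteDimensional ℂ Q
  mem : ∀ y, E y ∈ M
  tr : ∀ y, τ (E y) = τ y

/-- The next state. -/
def TowerSt.next (hF : τ.Faithful) {Q₀ : StarSubalgebra ℂ A} (σ : TowerSt τ Q₀) (s t : A)
    (h : PPair s t) (hs : s ∈ σ.Q) (ht : t ∈ σ.Q) : TowerSt τ Q₀ where
  Q := σ.Q ⊓ StarSubalgebra.centralizer ℂ ({s, t} : Set A)
  M := σ.M ⊓ StarSubalgebra.centralizer ℂ ({s, t} : Set A)
  E := pTw s t ∘ₗ σ.E
  le₀ := inf_le_left.trans σ.le₀
  le := inf_le_inf_right _ σ.le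
  wQ := wclosed_inf_cent hF h σ.wQ
  wM := wclosed_inf_cent hF h σ.wM
  irr := irr_inf_cent h hs ht σ.irr
  inf := infdim_inf_cent h hs ht σ.inf
  mem y := StarSubalgebra.mem_inf.mpr
    ⟨pTw_mem (σ.le hs) (σ.le ht) (σ.mem y), h.pTw_mem_cent _⟩
  tr y := by
    change τ (pTw s t (σ.E y)) = τ y
    rw [τ.tr_pTw h, σ.tr]

lemma TowerSt.exists_pair (hcut : τ.CutProp) {Q₀ : StarSubalgebra ℂ A} (σ : TowerSt τ Q₀) (z : A) :
    ∃ p : A × A, PPair p.1 p.2 ∧ p.1 ∈ σ.Q ∧ p.2 ∈ σ.Q ∧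
      τ.n2 (halfTw p.2 (σ.E z - τ z • (1 : A))) ^ 2
        ≤ (1 - 1 / 200) * τ.n2 (σ.E z - τ z • (1 : A)) ^ 2 := by
  obtain ⟨s, hs, t, ht, h1, h2, h3, h4, h5, h6⟩ := hcut σ.Q σ.M σ.le σ.wQ σ.wM σ.irr σ.inf
    (σ.E z - τ z • (1 : A)) (σ.M.sub_mem (σ.mem z) (σ.M.smul_mem σ.M.one_mem _))
    (by rw [tr_sub, tr_smul, tr_one, mul_one, σ.tr, sub_self])
  exact ⟨(s, t), ⟨h1, h2, h3, h4, h5⟩, hs, ht, h6⟩

lemma wclosed_top : τ.WClosed ((⊤ : StarSubalgebra ℂ A) : Set A) :=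
  fun _ _ _ _ _ _ => StarSubalgebra.mem_top

end TrState

theorem TrState.exists_tower_AV (τ : TrState A) (hF : τ.Faithful) (hS : τ.Separable)
    (hcut : τ.CutProp)
    (Q : StarSubalgebra ℂ A) (hQ : τ.WClosed Q) (hirr : TrState.Irr Q ⊤)
    (hinf : ¬ FiniteDimensional ℂ Q) :
    ∃ s t : ℕ → A, PauliTower s t ∧ (∀ j, s j ∈ Q ∧ t j ∈ Q) ∧
      τ.AV (StarAlgebra.adjoin ℂ (Set.range s ∪ Set.range t)) := by
  obtain ⟨z, hz⟩ := hS
  choose pr hpr using fun (σ : TrState.TowerSt τ Q) (y : A) => σ.exists_pair hcut y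
  let σ₀ : TrState.TowerSt τ Q :=
    ⟨Q, ⊤, LinearMap.id, le_rfl, le_top, hQ, TrState.wclosed_top, hirr, hinf,
      fun _ => StarSubalgebra.mem_top, fun _ => rfl⟩
  let σ : ℕ → TrState.TowerSt τ Q := fun k => Nat.rec σ₀ (fun k σ =>
    σ.next hF (pr σ (z k.unpair.1)).1 (pr σ (z k.unpair.1)).2 (hpr σ _).1 (hpr σ _).2.1
      (hpr σ _).2.2.1) k
  let s : ℕ → A := fun k => (pr (σ k) (z k.unpair.1)).1
  let t : ℕ → A := fun k => (pr (σ k) (z k.unpair.1)).2
  have hp : ∀ k, PPair (s k) (t k) := fun k => (hpr (σ k) _).1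
  have hs : ∀ k, s k ∈ (σ k).Q := fun k => (hpr (σ k) _).2.1
  have ht : ∀ k, t k ∈ (σ k).Q := fun k => (hpr (σ k) _).2.2.1
  have hQs : ∀ k, (σ (k + 1)).Q = (σ k).Q ⊓ StarSubalgebra.centralizer ℂ ({s k, t k} : Set A) :=
    fun k => rfl
  have hE : ∀ k, (σ k).E = TrState.towerTw s t k := by
    intro k
    induction k with
    | zero => rfl
    | succ k ih =>
      change pTw (s k) (t k) ∘ₗ (σ k).E = pTw (s k) (t k) ∘ₗ TrState.towerTw s t k
      rw [ih]
  have hanti : Antitone fun k => (σ k).Q :=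
    antitone_nat_of_succ_le fun k => by rw [hQs]; exact inf_le_left
  have hcomm : ∀ i j, i < j → ∀ x ∈ (σ j).Q, s i * x = x * s i ∧ t i * x = x * t i := by
    intro i j hij x hx
    have h1 : x ∈ (σ (i + 1)).Q := hanti (Nat.succ_le_of_lt hij) hx
    rw [hQs] at h1
    exact (hp i).mem_cent.mp (StarSubalgebra.mem_inf.mp h1).2
  have htower : PauliTower s t := by
    refine ⟨fun j => (hp j).s_sa, fun j => (hp j).t_sa, fun j => (hp j).s_sq,
      fun j => (hp j).t_sq, fun j => (hp j).anti, fun i j => ?_, fun i j => ?_, fun i j hij => ?_⟩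
    · rcases lt_trichotomy i j with hij | rfl | hij
      · exact (hcomm i j hij _ (hs j)).1
      · rfl
      · exact (hcomm j i hij _ (hs i)).1.symm
    · rcases lt_trichotomy i j with hij | rfl | hij
      · exact (hcomm i j hij _ (ht j)).2
      · rfl
      · exact (hcomm j i hij _ (ht i)).2.symm
    · rcases lt_or_gt_of_ne hij with hij | hij
      · exact (hcomm i j hij _ (ht j)).1
      · exact (hcomm j i hij _ (hs i)).2.symm
  refine ⟨s, t, htower, fun j => ⟨(σ j).le₀ (hs j), (σ j).le₀ (ht j)⟩,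
    TrState.av_of_tower htower ?_⟩
  -- convergence of the iterated twirls
  let d : A → ℕ → ℝ := fun y k => τ.n2 (TrState.towerTw s t k y - τ y • (1 : A))
  have hstep : ∀ y k, TrState.towerTw s t (k + 1) y - τ y • (1 : A)
      = pTw (s k) (t k) (TrState.towerTw s t k y - τ y • (1 : A)) := by
    intro y k
    rw [map_sub, map_smul, (hp k).pTw_one]
    rfl
  have hd : ∀ y, Antitone (d y) := fun y => antitone_nat_of_succ_le fun k => by
    change τ.n2 _ ≤ τ.n2 _
    rw [hstep]; exact τ.n2_pTw_le (hp k) _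
  have hd0 : ∀ y k, 0 ≤ d y k := fun y k => τ.n2_nonneg _
  have hcontr : ∀ k, d (z k.unpair.1) (k + 1) ^ 2 ≤ (1 - 1 / 200) * d (z k.unpair.1) k ^ 2 := by
    intro k
    have h1 := (hpr (σ k) (z k.unpair.1)).2.2.2
    rw [hE] at h1
    refine le_trans ?_ h1
    refine pow_le_pow_left₀ (hd0 _ _) ?_ 2
    change τ.n2 _ ≤ _
    rw [hstep]
    exact τ.n2_pTw_le_half (hp k) _
  have hgeo : ∀ j n : ℕ, ∃ k, d (z j) k ^ 2 ≤ (1 - 1 / 200) ^ n * d (z j) 0 ^ 2 := by
    intro j n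
    induction n with
    | zero => exact ⟨0, by simp⟩
    | succ n ih =>
      obtain ⟨k, hk⟩ := ih
      refine ⟨Nat.pair j k + 1, ?_⟩
      have h1 := hcontr (Nat.pair j k)
      rw [Nat.unpair_pair] at h1
      have h2 : d (z j) (Nat.pair j k) ^ 2 ≤ d (z j) k ^ 2 :=
        pow_le_pow_left₀ (hd0 _ _) (hd _ (Nat.right_le_pair j k)) 2
      simp only at h1
      rw [pow_succ (1 - 1 / 200 : ℝ) n]
      linarith
  have hsmall : ∀ j (ε : ℝ), 0 < ε → ∃ k, d (z j) k < ε := by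
    intro j ε hε
    have : Tendsto (fun n : ℕ => (1 - 1 / 200 : ℝ) ^ n * d (z j) 0 ^ 2) atTop
        (𝓝 (0 * d (z j) 0 ^ 2)) :=
      (tendsto_pow_atTop_nhds_zero_of_lt_one (by norm_num) (by norm_num)).mul_const _
    rw [zero_mul] at this
    obtain ⟨n, hn⟩ := (this.eventually (gt_mem_nhds (pow_pos hε 2))).exists
    obtain ⟨k, hk⟩ := hgeo j n
    exact ⟨k, lt_of_pow_lt_pow_left₀ 2 hε.le (hk.trans_lt hn)⟩
  intro y
  rw [Metric.tendsto_atTop]
  intro ε hε
  obtain ⟨j, hj⟩ := hz y (ε / 2) (half_pos hε)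
  obtain ⟨k, hk⟩ := hsmall j (ε / 2) (half_pos hε)
  refine ⟨k, fun n hn => ?_⟩
  rw [Real.dist_eq, sub_zero, abs_of_nonneg (τ.n2_nonneg _)]
  have e : TrState.towerTw s t n y - τ y • (1 : A)
      = (TrState.towerTw s t n (y - z j) - τ (y - z j) • (1 : A))
        + (TrState.towerTw s t n (z j) - τ (z j) • (1 : A)) := by
    rw [map_sub, τ.tr_sub, sub_smul]; abel
  rw [e]
  have h1 : d (y - z j) n ≤ d (y - z j) 0 := hd _ (Nat.zero_le n)
  have h2 : d (y - z j) 0 ≤ τ.n2 (y - z j) := τ.n2_sub_tr_le _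
  have h3 : d (z j) n ≤ d (z j) k := hd _ hn
  have h4 := τ.n2_add_le (TrState.towerTw s t n (y - z j) - τ (y - z j) • (1 : A))
    (TrState.towerTw s t n (z j) - τ (z j) • (1 : A))
  change _ ≤ d (y - z j) n + d (z j) n at h4
  linarith

theorem TrState.exists_pair_commutant (τ : TrState A) (hF : τ.Faithful) (hcut : τ.CutProp)
    (hirr : TrState.Irr (⊤ : StarSubalgebra ℂ A) ⊤) (hinf : ¬ FiniteDimensional ℂ A) :
    ∃ s t : A, star s = s ∧ star t = t ∧ s * s = 1 ∧ t * t = 1 ∧ s * t = -(t * s) ∧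
      τ.WClosed (StarSubalgebra.centralizer ℂ ({s, t} : Set A)) ∧
      TrState.Irr (StarSubalgebra.centralizer ℂ ({s, t} : Set A))
        (StarSubalgebra.centralizer ℂ ({s, t} : Set A)) ∧
      ¬ FiniteDimensional ℂ (StarSubalgebra.centralizer ℂ ({s, t} : Set A)) ∧
      ∀ a : A, ∃ a0 a1 a2 a3 : A, a0 ∈ StarSubalgebra.centralizer ℂ ({s, t} : Set A) ∧
        a1 ∈ StarSubalgebra.centralizer ℂ ({s, t} : Set A) ∧
        a2 ∈ StarSubalgebra.centralizer ℂ ({s, t} : Set A) ∧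
        a3 ∈ StarSubalgebra.centralizer ℂ ({s, t} : Set A) ∧
        a = a0 + s * a1 + t * a2 + s * t * a3 := by
  have hinf' : ¬ FiniteDimensional ℂ (⊤ : StarSubalgebra ℂ A) := by
    intro hfin
    apply hinf
    have : FiniteDimensional ℂ (⊤ : Submodule ℂ A) := hfin
    exact Module.Finite.equiv Submodule.topEquiv
  obtain ⟨s, hs, t, ht, h1, h2, h3, h4, h5, -⟩ := hcut ⊤ ⊤ le_rfl TrState.wclosed_top
    TrState.wclosed_top hirr hinf' 0 StarSubalgebra.mem_top τ.tr_zero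
  have hp : PPair s t := ⟨h1, h2, h3, h4, h5⟩
  have a1 := TrState.wclosed_inf_cent hF hp (TrState.wclosed_top (τ := τ))
  have a2 := TrState.irr_inf_cent hp hs ht hirr
  have a3 := TrState.infdim_inf_cent hp hs ht hinf'
  rw [top_inf_eq] at a1 a2 a3
  exact ⟨s, t, h1, h2, h3, h4, h5, a1, a2, a3, fun a => ⟨_, _, _, _, hp.pTw_mem_cent _,
    hp.pTw_mem_cent _, hp.pTw_mem_cent _, hp.pTw_mem_cent _, hp.decomp a⟩⟩

end Crest.Agent.Lib.Tracial
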