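import Crest.Agent.Lib.Tracial.Iface

/-! The ultrafilter trace on bounded sequences, exact freeness and transfer. -/

set_option autoImplicit false

open scoped ComplexConjugate Topology BoundedContinuousFunction
open Filter

noncomputable section

namespace Crest.Agent.Lib.Tracial

variable {A : Type*} [CStarAlgebra A]

/-- Evaluation of a bounded sequence at a coordinate, as a star algebra homomorphism. -/
def evalHom (m : ℕ) : (ℕ →ᵇ A) →⋆ₐ[ℂ] A where
  toFun x := x m
  map_one' := rfl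
  map_mul' _ _ := rfl
  map_zero' := rfl
  map_add' _ _ := rfl
  commutes' _ := rfl
  map_star' _ := rfl

@[simp] lemma evalHom_apply (m : ℕ) (x : ℕ →ᵇ A) : evalHom m x = x m := rfl

namespace TrState

variable (τ : TrState A)

lemma exists_tendsto_hyper (x : ℕ →ᵇ A) :
    ∃ c : ℂ, Tendsto (fun m => τ (x m)) (hyperfilter ℕ : Filter ℕ) (𝓝 c) := by
  have hc : IsCompact (Metric.closedBall (0 : ℂ) ‖x‖) := isCompact_closedBall _ _
  have hle : ((Ultrafilter.map (fun m => τ (x m)) (hyperfilter ℕ) : Ultrafilter ℂ) : Filter ℂ)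
      ≤ 𝓟 (Metric.closedBall (0 : ℂ) ‖x‖) := by
    rw [le_principal_iff, Ultrafilter.coe_map, mem_map]
    refine univ_mem' fun m => ?_
    simp only [Set.mem_preimage, mem_closedBall_zero_iff]
    exact (τ.norm_tr_le _).trans (x.norm_coe_le_norm m)
  obtain ⟨c, -, hc⟩ := hc.ultrafilter_le_nhds _ hle
  exact ⟨c, hc⟩

/-- The ultrafilter limit of the traces of the coordinates. -/
def ultraFun (x : ℕ →ᵇ A) : ℂ := limUnder (hyperfilter ℕ : Filter ℕ) (fun m => τ (x m))

lemma tendsto_ultraFun (x : ℕ →ᵇ A) :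
    Tendsto (fun m => τ (x m)) (hyperfilter ℕ : Filter ℕ) (𝓝 (τ.ultraFun x)) :=
  tendsto_nhds_limUnder (τ.exists_tendsto_hyper x)

lemma ultraFun_eq {x : ℕ →ᵇ A} {c : ℂ}
    (h : Tendsto (fun m => τ (x m)) (hyperfilter ℕ : Filter ℕ) (𝓝 c)) : τ.ultraFun x = c :=
  tendsto_nhds_unique (τ.tendsto_ultraFun x) h

/-- The ultrafilter trace on bounded sequences. -/
def ultra : TrState (ℕ →ᵇ A) where
  lin :=
    { toFun := τ.ultraFun
      map_add' := fun x y => τ.ultraFun_eq <| by
        have := (τ.tendsto_ultraFun x).add (τ.tendsto_ultraFun y)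
        refine this.congr fun m => ?_
        rw [← τ.tr_add]; rfl
      map_smul' := fun c x => τ.ultraFun_eq <| by
        have := (τ.tendsto_ultraFun x).const_mul c
        refine this.congr fun m => ?_
        rw [← τ.tr_smul]; rfl }
  map_one' := τ.ultraFun_eq <| by
    refine tendsto_const_nhds.congr fun m => ?_
    exact τ.tr_one.symm
  map_star' x := τ.ultraFun_eq <| by
    have := (Complex.continuous_conj.tendsto _).comp (τ.tendsto_ultraFun x)
    refine this.congr fun m => ?_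
    exact (τ.tr_star _).symm
  pos' x := by
    have := (Complex.continuous_re.tendsto _).comp (τ.tendsto_ultraFun (star x * x))
    exact ge_of_tendsto' this fun m => τ.re_pos (x m)
  comm' x y := τ.ultraFun_eq <| by
    refine (τ.tendsto_ultraFun (y * x)).congr fun m => ?_
    exact τ.tr_comm _ _

lemma ultra_apply (x : ℕ →ᵇ A) :
    τ.ultra x = limUnder (hyperfilter ℕ : Filter ℕ) (fun m => τ (x m)) := rfl

lemma tendsto_ultra (x : ℕ →ᵇ A) :
    Tendsto (fun m => τ (x m)) (hyperfilter ℕ : Filter ℕ) (𝓝 (τ.ultra x)) :=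
  τ.tendsto_ultraFun x

lemma ultra_eq {x : ℕ →ᵇ A} {c : ℂ}
    (h : Tendsto (fun m => τ (x m)) (hyperfilter ℕ : Filter ℕ) (𝓝 c)) : τ.ultra x = c :=
  τ.ultraFun_eq h

lemma tendsto_ultra_n2 (x : ℕ →ᵇ A) :
    Tendsto (fun m => τ.n2 (x m)) (hyperfilter ℕ : Filter ℕ) (𝓝 (τ.ultra.n2 x)) := by
  have h := (Complex.continuous_re.tendsto _).comp (τ.tendsto_ultra (star x * x))
  have h2 := (Real.continuous_sqrt.tendsto _).comp h
  rw [← τ.ultra.n2_sq, Real.sqrt_sq (τ.ultra.n2_nonneg x)] at h2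
  refine h2.congr fun m => ?_
  change Real.sqrt (τ (star (x m) * x m)).re = _
  rw [← τ.n2_sq, Real.sqrt_sq (τ.n2_nonneg _)]

end TrState

/-- Bounded sequences with all coordinates in `Q`. -/
def ultraSub (Q : StarSubalgebra ℂ A) : StarSubalgebra ℂ (ℕ →ᵇ A) where
  carrier := {x | ∀ m, x m ∈ Q}
  mul_mem' hx hy m := Q.mul_mem (hx m) (hy m)
  add_mem' hx hy m := Q.add_mem (hx m) (hy m)
  algebraMap_mem' c _ := Q.algebraMap_mem c
  star_mem' hx m := star_mem (hx m)

lemma mem_ultraSub {Q : StarSubalgebra ℂ A} {x : ℕ →ᵇ A} : x ∈ ultraSub Q ↔ ∀ m, x m ∈ Q :=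
  Iff.rfl

lemma mem_unitary_bcf {x : ℕ →ᵇ A} : x ∈ unitary (ℕ →ᵇ A) ↔ ∀ m, x m ∈ unitary A := by
  constructor
  · intro h m
    obtain ⟨h1, h2⟩ := Unitary.mem_iff.mp h
    exact Unitary.mem_iff.mpr ⟨congrArg (fun f : ℕ →ᵇ A => f m) h1,
      congrArg (fun f : ℕ →ᵇ A => f m) h2⟩
  · intro h
    refine Unitary.mem_iff.mpr ⟨?_, ?_⟩
    · ext m; exact (Unitary.mem_iff.mp (h m)).1
    · ext m; exact (Unitary.mem_iff.mp (h m)).2

lemma evw_apply (w : ℕ →ᵇ A) (m : ℕ) (W : List (Bool × (ℕ →ᵇ A))) :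
    evw w W m = evw (w m) (W.map fun p => (p.1, p.2 m)) := by
  induction W with
  | nil => rfl
  | cons p W ih =>
    simp only [List.map_cons, evw]
    rw [← ih]
    cases p.1 <;> rfl

/-- Changing the coefficients of a word by elements of zero 2-norm changes the word by an element
of zero 2-norm. -/
lemma TrState.n2_evw_map_sub {B : Type*} [CStarAlgebra B] (σ : TrState B) (w : B) (f : B → B)
    (W : List (Bool × B)) (hf : ∀ p ∈ W, σ.n2 (p.2 - f p.2) = 0) :
    σ.n2 (evw w W - evw w (W.map fun p => (p.1, f p.2))) = 0 := by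
  induction W with
  | nil => simp [evw]
  | cons p W ih =>
    have ih' := ih fun q hq => hf q (List.mem_cons_of_mem _ hq)
    have hp := hf p List.mem_cons_self
    simp only [List.map_cons, evw]
    set l : B := if p.1 then w else star w
    set E := evw w W
    set E' := evw w (W.map fun p => (p.1, f p.2))
    have : l * p.2 * E - l * f p.2 * E' = l * (p.2 - f p.2) * E + (l * f p.2) * (E - E') := by
      noncomm_ring
    rw [this]
    refine le_antisymm ?_ (σ.n2_nonneg _)
    refine (σ.n2_add_le _ _).trans ?_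
    have h1 := σ.n2_mul_mul_le l (p.2 - f p.2) E
    have h2 := σ.n2_mul_le_left (l * f p.2) (E - E')
    rw [hp] at h1
    rw [ih'] at h2
    simp only [mul_zero, zero_mul] at h1 h2
    linarith

namespace TrState

/-- The sequence of scalar parts of a bounded sequence. -/
def scal (τ : TrState A) (x : ℕ →ᵇ A) : ℕ →ᵇ A :=
  BoundedContinuousFunction.ofNormedAddCommGroupDiscrete (fun m => τ (x m) • (1 : A)) ‖x‖
    (fun m => by
      rw [norm_smul, τ.norm_one_eq, mul_one]
      exact (τ.norm_tr_le _).trans (x.norm_coe_le_norm m))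

lemma scal_apply (τ : TrState A) (x : ℕ →ᵇ A) (m : ℕ) : τ.scal x m = τ (x m) • (1 : A) := rfl

lemma ultra_n2_scal (τ : TrState A) {x : ℕ →ᵇ A} (hx : τ.ultra x = 0) :
    τ.ultra.n2 (τ.scal x) = 0 := by
  have h1 := τ.tendsto_ultra_n2 (τ.scal x)
  have h2 := (τ.tendsto_ultra x).norm
  rw [hx, norm_zero] at h2
  refine tendsto_nhds_unique h1 (h2.congr fun m => ?_)
  rw [scal_apply, n2_smul, n2_one, mul_one]

theorem ApproxFree.freeExt_ultra {τ : TrState A} {Q : StarSubalgebra ℂ A}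
    (h : τ.ApproxFree Q) : τ.ultra.FreeExt (ultraSub Q : Set _) := by
  classical
  intro y hy X hX
  obtain ⟨x, hx⟩ := Set.countable_iff_exists_subset_range.mp hX
  have hy' := mem_unitary_bcf.mp hy
  have key : ∀ m : ℕ, ∃ a ∈ Q, a ∈ unitary A ∧ ∀ W : List (Bool × A), W ≠ [] → W.length ≤ m →
      (∀ p ∈ W, p.2 ∈ ((Finset.range m).image fun i => x i m) ∪
        ((Finset.range m).image fun i => x i m - τ (x i m) • (1 : A))) → RedW τ W →
        ‖τ (evw (y m * a) W)‖ ≤ 1 / ((m : ℝ) + 1) :=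
    fun m => h (y m) (hy' m) _ m _ Nat.one_div_pos_of_nat
  choose a haQ haU ha using key
  let a' : ℕ →ᵇ A := BoundedContinuousFunction.ofNormedAddCommGroupDiscrete a 1
    (fun m => (τ.norm_unitary (haU m)).le)
  refine ⟨a', fun m => haQ m, mem_unitary_bcf.mpr haU, fun W hW hWX hred => ?_⟩
  let f : (ℕ →ᵇ A) → (ℕ →ᵇ A) := fun z => if τ.ultra z = 0 then z - τ.scal z else z
  have hf : ∀ p ∈ W, τ.ultra.n2 (p.2 - f p.2) = 0 := by
    intro p _
    by_cases hp : τ.ultra p.2 = 0
    · simp only [f, if_pos hp, sub_sub_cancel]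
      exact τ.ultra_n2_scal hp
    · simp only [f, if_neg hp, sub_self, n2_zero]
  have h0 := τ.ultra.n2_evw_map_sub (y * a') f W hf
  have h1 := τ.ultra.norm_tr_le_n2
    (evw (y * a') W - evw (y * a') (W.map fun p => (p.1, f p.2)))
  rw [h0, τ.ultra.tr_sub, norm_le_zero_iff, sub_eq_zero] at h1
  rw [h1]
  refine τ.ultra_eq (Tendsto.mono_left ?_ Nat.hyperfilter_le_atTop)
  have hidx : ∀ p ∈ W, ∃ i, x i = p.2 := fun p hp => hx (hWX p hp)
  have hev : ∀ᶠ m in atTop, ∀ p ∈ W, ∃ i < m, x i = p.2 := by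
    have : ∀ p ∈ {p | p ∈ W}, ∀ᶠ m in atTop, ∃ i < m, x i = p.2 := by
      intro p hp
      obtain ⟨i, hi⟩ := hidx p hp
      filter_upwards [eventually_gt_atTop i] with m hm using ⟨i, hm, hi⟩
    exact (eventually_all_finite (List.finite_toSet W)).mpr this
  refine squeeze_zero_norm' ?_ tendsto_one_div_add_atTop_nhds_zero_nat
  filter_upwards [hev, eventually_ge_atTop W.length] with m hm hlen
  rw [evw_apply]
  refine ha m _ ?_ ?_ ?_ ?_
  · simpa using hW
  · simpa using hlen
  · intro p hp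
    simp only [List.map_map, List.mem_map, Function.comp] at hp
    obtain ⟨q, hq, rfl⟩ := hp
    obtain ⟨i, hi, hiq⟩ := hm q hq
    simp only [Finset.mem_union, Finset.mem_image, Finset.mem_range]
    by_cases hq0 : τ.ultra q.2 = 0
    · right
      refine ⟨i, hi, ?_⟩
      simp only [f, if_pos hq0, hiq]
      rfl
    · left
      refine ⟨i, hi, ?_⟩
      simp only [f, if_neg hq0, hiq]
  · unfold RedW at hred ⊢
    rw [List.map_map, List.isChain_map]
    refine hred.imp fun p q hpq hne => ?_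
    have hp0 : τ.ultra p.2 = 0 := hpq hne
    simp only [Function.comp, f, if_pos hp0]
    change τ (p.2 m - τ (p.2 m) • (1 : A)) = 0
    rw [tr_sub, tr_smul, tr_one, mul_one, sub_self]

theorem approxGen_of_ultra {τ : TrState A} {Q : StarSubalgebra ℂ A}
    (h : τ.ultra.ApproxGen (ultraSub Q)) : τ.ApproxGen Q := by
  intro u₀ hu₀ x hx η hη
  obtain ⟨u, hu, h1, g, hg, h2⟩ := h (BoundedContinuousFunction.const ℕ u₀)
    (mem_unitary_bcf.mpr fun _ => hu₀) (BoundedContinuousFunction.const ℕ x)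
    (mem_unitary_bcf.mpr fun _ => hx) η hη
  have e1 := (τ.tendsto_ultra_n2 _).eventually (gt_mem_nhds h1)
  have e2 := (τ.tendsto_ultra_n2 _).eventually (gt_mem_nhds h2)
  obtain ⟨m, hm1, hm2⟩ := (e1.and e2).exists
  refine ⟨u m, mem_unitary_bcf.mp hu m, hm1, g m, ?_, hm2⟩
  have hle : StarAlgebra.adjoin ℂ (insert u (ultraSub Q : Set (ℕ →ᵇ A))) ≤
      (StarAlgebra.adjoin ℂ (insert (u m) (Q : Set A))).comap (evalHom m) := by
    refine StarAlgebra.adjoin_le ?_
    rintro z (rfl | hz)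
    · exact StarAlgebra.subset_adjoin ℂ _ (Set.mem_insert _ _)
    · exact StarAlgebra.subset_adjoin ℂ _ (Set.mem_insert_of_mem _ (hz m))
  exact hle hg

end TrState

end Crest.Agent.Lib.Tracial
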